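import Vale.Agent.P354YM.Defs

/-!
The conditional track: exact statements of the blocks.
-/

open scoped ContDiff
open MeasureTheory Set Filter Topology Matrix

noncomputable section

namespace Vale.Agent.P354YM

open Vale.Agent.P354n (R4 mink)
open Vale.Agent.P354I (X Dat P3 rm rp Con)
open Vale.Agent.P354J (PDy Ud)
open Vale.Agent.P354R (Met)
open Vale.Agent.P354XS (DA BA qm)
open Vale.Agent.P354XE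
open Vale.Agent.P354XU (L4 Jt IndAt)
open Vale.Agent.P354XM (sh)
open Vale.Agent.P354YR (gK XK XI)
open Metric (ball)

/-! ### Small bridges -/

/-- EXT with the explicit Kerr metric. -/
def EXT2 : Prop :=
  ∀ M a : ℝ, a ≠ 0 → |a| < M → ∃ s > 1, ∃ δ > 0, ∀ r1 ∈ Ioo (rm M a) (rp M a), ∀ θ0 > 0,
    ∃ θ ∈ Ioo 0 θ0, ∀ R0, ∃ R ≥ R0, ∀ N : ℕ, ∀ ε > 0, ∃ m, ∃ η > 0,
      ∀ d ∈ BA M a m η, ∃ T : Tg, T.Is ⟨M, a, r1, θ, R, s, δ, ε, N⟩ d.1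

/-- The metric g0 of EXT is gK. -/
def MIDK : Prop :=
  ∀ M a r1 θ ε N g g0 D Xf, |a| < M → rm M a < r1 → IsKr M a r1 g0 → Lor g D Xf →
    D0 M a r1 ⊆ D → Mid M a r1 θ ε N g g0 → Mid M a r1 θ ε N g (gK M a)

def CLS : Prop :=
  ∀ M a r1 r0 r2 s δ, Bs M a r1 r0 r2 s δ → Evt M a r1 s δ fun P =>
    ∀ d (T : Tg), T.Is P d → Cls P univ T.g T.Xf T.q

/-- Uniqueness of the rolling, and the time orientation of the frame. -/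
def RU2 : Prop :=
  ∀ g D Xf d c Ω b E, Lor g D Xf → PDy d → Ro g D Xf d c Ω b E → ∀ p ∈ Ω, xs p ≠ 0 →
    (Tl c p → Ft g Xf (b p) (E p (c p))) ∧ ∀ c' Ω' b' E', Ro g D Xf d c' Ω' b' E' → p ∈ Ω' →
      (∀ s ∈ uIcc 0 p.1, c (s, p.2) = c' (s, p.2)) → b p = b' p

/-- The hypersurface r = r2 is crossed only inwards. -/
def MONO : Prop :=
  ∀ M a r1 r0 r2 s δ, Bs M a r1 r0 r2 s δ → Evt M a r1 s δ fun P =>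
    ∀ d (T : Tg), T.Is P d → ∀ x x', Cv T.g T.Xf (D0 M a r1) x x' → r2 < kr M a x' →
      r2 < kr M a x

/-! ### The causal structure of the developments -/

def LENS : Prop :=
  ∀ M a r1 r0 r2 s δ, Bs M a r1 r0 r2 s δ → Evt M a r1 s δ fun P =>
    ∀ d (T : Tg), PDy d → T.Is P d → ∀ A, IsCompact A →
      (∀ p ∈ A, p ∈ D0 M a r1 ∧ r2 ≤ kr M a p) → ∃ W τ V, W ⊆ T.D ∧ Lens W T.g T.Xf τ V d ∧
        A ⊆ KV W τ (V - 1) ∧ ∀ p ∈ KV W τ V, p ∈ D0 M a r1 ∧ r0 ≤ kr M a p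

/-- Bounds on compact sets which are uniform in the development. -/
def UBD : Prop :=
  ∀ M a r1 r0 r2 s δ, Bs M a r1 r0 r2 s δ → Evt M a r1 s δ fun P =>
    ∀ C, IsCompact C → (∀ p ∈ C, p ∈ D0 M a r1 ∧ r0 ≤ kr M a p) → ∃ B, ∃ c > 0,
      ∀ d (T : Tg), T.Is P d → ∃ τ, ∀ p ∈ C, UB P.N B c T.g T.Xf τ p

/-- Points outside of a compact set see the far parts of the initial slice. -/
def DOD : Prop :=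
  ∀ M a r1 r0 r2 s δ, Bs M a r1 r0 r2 s δ → Evt M a r1 s δ fun P =>
    ∀ ρ, ∃ C, IsCompact C ∧ (∀ p ∈ C, xs p ≠ 0) ∧ ∀ d (T : Tg), T.Is P d → ∀ x ∈ D0 M a r1,
      r0 ≤ kr M a x → x ∉ C →
      ∃ y ≠ 0, ρ < |Real.log ‖y‖| ∧ Cv T.g T.Xf (D0 M a r1) (pt 0 y) x

/-- The base point of the spine. -/
def y0 (M : ℝ) : ℝ × ℝ × ℝ := (9 / 5 * M, 0, 12 / 5 * M)

/-- Paths to the spine in the ingoing chart. -/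
def PATH : Prop :=
  ∀ M a r0 R1 : ℝ, |a| < M → rm M a < r0 → r0 ≤ 2 * M → 3 * M ≤ R1 → ∃ c > 0, ∃ L ≥ 1, ∃ k,
    (∀ t, ∀ h ∈ Ioc (0 : ℝ) 1, Pc (gin M a) (XI M a) c L {p | p.2 = y0 M ∧ p.1 ∈ Icc t (t + h)}
      (t, y0 M) (t + h, y0 M)) ∧
    ∀ p : R4, r0 ≤ rd p → rd p ≤ R1 → ∃ l ∈ Icc 0 L, Pk (gin M a) (XI M a) c L
      {x | r0 ≤ rd x ∧ rd x ≤ R1 ∧ x.1 ∈ Icc (p.1 - L) p.1} k (p.1 - l, y0 M) p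

/-- Paths to the initial slice in the Kruskal chart. -/
def PATH0 : Prop :=
  ∀ M a r1 r0 r2 s δ R1, Bs M a r1 r0 r2 s δ → 2 * M ≤ R1 → ∀ A, IsCompact A →
    (∀ p ∈ A, p ∈ D0 M a r1 ∧ r2 ≤ kr M a p ∧ kr M a p ≤ R1) → ∃ c > 0, ∃ L k A', IsCompact A' ∧
      (∀ p ∈ A', p ∈ D0 M a r1 ∧ r0 ≤ kr M a p ∧ kr M a p ≤ R1 + M / 2) ∧
      ∀ p ∈ A, ∃ y ≠ 0, ∃ k' ≤ k, Pk (gK M a) (XK M a) c L A' k' (pt 0 y) p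

/-- Paths from the black hole to the initial slice which stay in r ≤ 7 M / 2. -/
def PTH : Prop :=
  ∀ M a r1 r0 r2 s δ, Bs M a r1 r0 r2 s δ → Evt M a r1 s δ fun P =>
    ∀ d (T : Tg), T.Is P d → ∀ x ∈ D0 M a r1, r0 ≤ kr M a x → kr M a x ≤ 2 * M →
      ∃ y ≠ 0, Cv T.g T.Xf {z ∈ D0 M a r1 | kr M a z ≤ 7 / 2 * M} (pt 0 y) x

/-! ### Lenses -/

/-- The lens is a past set. -/
def PC : Prop :=
  ∀ W g Xf τ V d, Lens W g Xf τ V d → ∀ V' ≤ V, ∀ γ : ℝ → R4, γ 1 ∈ KV W τ V' →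
    (∀ s ∈ Icc (0 : ℝ) 1, DifferentiableAt ℝ γ s ∧ 0 ≤ (γ s).1 ∧
      (γ s ∈ KV W τ V → Ft g Xf (γ s) (deriv γ s))) → ∀ s ∈ Icc (0 : ℝ) 1, γ s ∈ KV W τ V'

/-- The straightening of a lens which extends a given rolling on A. -/
def STR : Prop :=
  ∀ W g Xf τ V d, Lens W g Xf τ V d → ∀ g0 D X0 d0 c0 Ω0 b0 E0 A, Lor g0 D X0 →
    Ro g0 D X0 d0 c0 Ω0 b0 E0 → Seg A → A ⊆ Ω0 → InjOn b0 A →
    (∀ p ∈ A, Function.Injective (fderiv ℝ b0 p) ∧ Tl c0 p ∧ b0 p ∈ KV W τ V ∧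
      (∀ᶠ x in 𝓝 (b0 p), g x = g0 x ∧ Xf x = X0 x) ∧ (p.1 = 0 → d.h (xs p) = d0.h (xs p))) →
    ∃ c Ω Φ Ψ E, Str W g Xf τ V d c Ω Φ Ψ E ∧ A ⊆ Ω ∧ ∀ p ∈ A, c p = c0 p ∧ Φ p = b0 p

/-- Lifting of past directed curves, and injectivity. -/
def LIFT : Prop :=
  ∀ W g Xf τ V d c Ω Φ Ψ E, Lens W g Xf τ V d → Str W g Xf τ V d c Ω Φ Ψ E → ∃ η > 0,
    ∀ V' ≤ V, ∀ g' D' X' b, Lor g' D' X' →
      (∀ y ≠ 0, pt 0 y ∈ D' ∧ Tm g' X' (fun p => p.1) (pt 0 y)) →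
      Emb (KV W τ V') g Xf g' X' 0 η b → (∀ p ∈ KV W τ V', b p ∈ D' ∧ xs (b p) ≠ 0) →
      InjOn b (KV W τ V') ∧ ∀ p ∈ KV W τ V', ∀ x γ,
        Cu g' X' {z ∈ D' | xs z ≠ 0 ∧ 0 ≤ z.1} x (b p) γ → ∃ γ' : ℝ → R4,
          ContinuousOn γ' (Icc 0 1) ∧ γ' 1 = p ∧
            ∀ s ∈ Icc (0 : ℝ) 1, γ' s ∈ KV W τ V' ∧ b (γ' s) = γ s

/-- Cauchy stability on a lens, for targets with bounds on C and with a trap C0. -/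
def EMB : Prop :=
  ∀ n : ℕ, ∃ N : ℕ, ∀ W g Xf τ V d c Ω Φ Ψ E, Lens W g Xf τ V d →
    Str W g Xf τ V d c Ω Φ Ψ E → ∀ (C0 C : Set R4) (B c0 η : ℝ), IsCompact C0 → IsCompact C →
    (∀ p ∈ C0, ∀ᶠ x in 𝓝 p, 0 ≤ x.1 → x ∈ C) → 0 < c0 → 0 < η → ∃ m, ∃ η' > 0,
      ∀ g' D' X' d' τ', Lor g' D' X' → PDy d' → C ⊆ D' →
        (∀ p ∈ C, UB N B c0 g' X' τ' p ∧ (p.1 = 0 → Tm g' X' (fun x => x.1) p)) →
        (∀ y, pt 0 y ∈ KV W τ V → pt 0 y ∈ C0 ∧ (∀ᶠ z in 𝓝 y, IndAt g' X' (pt 0) d' z) ∧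
          DJ m d' d y η') →
        (∀ V' ≤ V, ∀ b, Emb (KV W τ V') g Xf g' X' n η b → MapsTo b (KV W τ V') C →
          MapsTo b (KV W τ V') C0) →
        ∃ b Ω' b' E', Emb (KV W τ (V - 1)) g Xf g' X' n η b ∧ MapsTo b (KV W τ (V - 1)) C0 ∧
          Ro g' D' X' d' c Ω' b' E' ∧
          ∀ p ∈ Ω, Φ p ∈ KV W τ (V - 1) → p ∈ Ω' ∧ b' =ᶠ[𝓝 p] b ∘ Φ

/-- Almost isometries along a curve. -/
def ARG : Prop :=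
  ∀ (n : ℕ) (L B c ρ : ℝ), 1 ≤ n → 0 < c → 0 < ρ → ∃ C, ∃ δ > 0,
    ∀ (g0 g' : Tw) (O D' Ob : Set R4) (b : R4 → R4) (γ : ℝ → R4) (η ν : ℝ), IsOpen O → Met g0 O →
      IsOpen D' → Met g' D' → IsOpen Ob → ContDiffOn ℝ ∞ b Ob → η ≤ δ → ν ≤ δ →
      (∀ s ∈ Icc (0 : ℝ) 1, DifferentiableAt ℝ γ s ∧ ‖deriv γ s‖ ≤ L ∧ γ s ∈ Ob ∧ b (γ s) ∈ D' ∧
        (∀ x, ‖x - γ s‖ ≤ ρ → x ∈ O ∧ Bd (n + 1) g0 x B ∧
          ∀ v, ∃ w, ‖w‖ ≤ 1 ∧ c * ‖v‖ ≤ g0 x v w) ∧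
        Bd n (pb b g' - g0) (γ s) η ∧ (‖b (γ s) - γ s‖ ≤ ρ → Bd n (g' - g0) (b (γ s)) η)) →
      Jt 1 (b - id) (γ 0) ν → ∀ s ∈ Icc (0 : ℝ) 1, Jt (n + 1) (b - id) (γ s) (C * (η + ν))

/-- The constants with another order. -/
def Pm.n (P : Pm) (k : ℕ) : Pm := { P with N := k }

/-- The location of almost isometries in the near zone. -/
def LOCA : Prop :=
  ∀ M a r1 r0 r2 s δ, Bs M a r1 r0 r2 s δ → ∀ n : ℕ, ∃ t1, ∀ L A, IsCompact A →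
    (∀ p ∈ A, p ∈ D0 M a r1 ∧ r2 ≤ kr M a p ∧ kr M a p ≤ 4 * M) → ∀ e > 0,
      Evt M a r1 s δ fun P => ∀ W g Xf τ V d q, Ref (P.n (n + 5)) r2 W g Xf τ V d q → ∃ η > 0,
        ∀ V' ≤ V, ∀ d' (T : Tg) b, T.Is P d' → Emb (KV W τ V') g Xf T.g T.Xf (n + 3) η b →
          MapsTo b (KV W τ V') (D0 M a r1) →
          (∀ p ∈ KV W τ V', kr M a p ≤ 4 * M → |kr M a (b p) - kr M a p| ≤ e) ∧
            LocC n e A (KV W τ V') b ∧ LocD P r2 t1 L n e (KV W τ V') q T.q b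

/-- The transfer from a reference solution to the developments of nearby data. -/
def TRANS : Prop :=
  ∀ M a r1 r0 r2 s δ, Bs M a r1 r0 r2 s δ → ∀ n : ℕ, ∃ t1, ∀ L A, IsCompact A →
    (∀ p ∈ A, p ∈ D0 M a r1 ∧ r2 ≤ kr M a p ∧ kr M a p ≤ 4 * M) → ∀ e > 0,
      Evt M a r1 s δ fun P => ∀ W g Xf τ V d q c Ω Φ Ψ E, Ref (P.n (n + 5)) r2 W g Xf τ V d q →
        Str W g Xf τ V d c Ω Φ Ψ E → ∀ η > 0, ∃ m, ∃ η' > 0, ∀ d' (T : Tg), PDy d' →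
          T.Is P d' → (∀ y, pt 0 y ∈ KV W τ V → DJ m d' d y η') → ∃ b Ω' b' E',
            Emb (KV W τ (V - 1)) g Xf T.g T.Xf n η b ∧
            MapsTo b (KV W τ (V - 1)) (D0 M a r1) ∧ InjOn b (KV W τ (V - 1)) ∧
            Ro T.g T.D T.Xf d' c Ω' b' E' ∧
            (∀ p ∈ Ω, Φ p ∈ KV W τ (V - 1) → p ∈ Ω' ∧ b' =ᶠ[𝓝 p] b ∘ Φ) ∧
            LocC n e A (KV W τ (V - 1)) b ∧ LocD P r2 t1 L n e (KV W τ (V - 1)) q T.q b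

/-! ### Slices -/

/-- The family with another size of the middle part. -/
def Jd.w (j : Jd) (x : ℝ) : Jd := { j with X0 := x }

/-- O contains the radial segments to the unit sphere. -/
def Ray (O : Set X) : Prop :=
  (∀ y ∈ O, y ≠ 0) ∧ ∀ σ, ∀ y ∈ O, ∀ x ∈ Icc 0 (lg σ y), dl σ (-x) y ∈ O

/-- The slices lie above some radius r2 > rm. -/
def RAD : Prop :=
  ∀ j : Jd, j.Is → j.a ≠ 0 → |j.a| < j.M → ∃ r2 ∈ Ioo (rm j.M j.a) j.M, j.Rad r2 ∧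
    ContDiffOn ℝ ∞ j.J0 {0}ᶜ ∧
    ∀ y ≠ 0, xs (j.J0 y) ≠ 0 ∧ 0 < (j.J0 y).1 ∧ r2 < kr j.M j.a (j.J0 y)

/-- The position of admissible slices. -/
def CHAIN : Prop :=
  ∀ (j : Jd) r1 r0 r2 s δ, j.Is → Bs j.M j.a r1 r0 r2 s δ → j.Rad r2 → ∃ C, ∀ x0 ≥ 1, ∃ e0 > 0,
    ∀ n, ∀ e ≤ e0, ∀ O J (q : Bool → Par), (∀ σ, (q σ).Near j.M j.a e0) → Ray O →
      Adm (j.w x0) s n e O J q → ∀ y ∈ O,
        (J y ∈ D0 j.M j.a r1 ∧ r2 < kr j.M j.a (J y) ∧ kr j.M j.a (J y) < rp j.M j.a) ∧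
        ∀ σ, x0 - 1 ≤ lg σ y → lg σ y / 2 - C ≤ (iq j.M j.a σ (q σ) (J y)).1 ∧
          (iq j.M j.a σ (q σ) (J y)).1 ≤ 2 * lg σ y + C

/-- The extension of a slice by shifts of the Kerr slices. -/
def SWITCH : Prop :=
  ∀ (j : Jd) r1 r0 r2 s δ, j.Is → Bs j.M j.a r1 r0 r2 s δ → 1 ≤ j.X0 → ∀ n, ∀ o ∈ Ioc (0 : ℝ) 1,
    ∀ e' > 0, ∃ e > 0, ∀ (Z : Bool → ℝ) J (q : Bool → Par), (∀ σ, j.X0 + 5 ≤ Z σ) →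
      (∀ σ, (q σ).Near j.M j.a e) → ContDiffOn ℝ ∞ J (Rg Z) → Last j s n e Z J q →
      ∃ J', EqOn J' J (Rg fun σ => Z σ - o) ∧ Exact j Z J' q ∧ ContDiffOn ℝ ∞ J' {0}ᶜ ∧
        ∀ σ, ∀ x ≥ Z σ - 3, ∃ c φ,
          LocAt j n J' (q σ) σ {0}ᶜ (Icc (-1) 1) x c φ (e' * (1 + x) ^ (-s))

/-- The location of the image of a slice. -/
def LOCS : Prop :=
  ∀ (j : Jd) r1 r0 r2 s δ, j.Is → Bs j.M j.a r1 r0 r2 s δ → j.Rad r2 → ∀ (n : ℕ) (t1 : ℝ),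
    ∃ L x1, ∀ x0 ≥ x1, ∃ A, IsCompact A ∧
      (∀ p ∈ A, p ∈ D0 j.M j.a r1 ∧ r2 ≤ kr j.M j.a p ∧ kr j.M j.a p ≤ 4 * j.M) ∧ ∃ e0 > 0,
      ∀ e' > 0, ∃ e > 0, ∀ (P : Pm) K O (q q' : Bool → Par) b, P.M = j.M → P.a = j.a → P.s = s →
        (∀ σ, (q σ).Near j.M j.a e ∧ (q' σ).Near j.M j.a e) → IsOpen O → K ⊆ O →
        ContDiffOn ℝ ∞ b O → LocC n e A K b → LocD P r0 t1 L n e K q q' b →
        (MapsTo j.J0 (Rg fun _ => x0 + 5) K →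
          Adm (j.w x0) s n e' (Rg fun _ => x0 + 5) (b ∘ j.J0) q' ∧
            Last (j.w x0) s n e' (fun _ => x0 + 5) (b ∘ j.J0) q') ∧
        ∀ J Z', Adm (j.w x0) s n e0 {0}ᶜ J q → MapsTo J (Rg Z') K →
          (∀ σ, ∀ x ≥ x0, ∀ c φ,
            LocAt j n J (q σ) σ {0}ᶜ (Icc (-1) 1) x c φ (e * (1 + x) ^ (-s)) → ∃ c' φ',
              LocAt j n (b ∘ J) (q' σ) σ (Rg Z') (Icc (-1) 1) x c' φ' (e' * (1 + x) ^ (-s))) ∧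
          ∀ Z, Exact j Z J q → (∀ σ, x0 ≤ Z σ ∧ Z σ + 5 ≤ Z' σ) → Last j s n e' Z' (b ∘ J) q'

/-- The data induced on admissible slices. -/
def DAT : Prop :=
  ∀ (j : Jd) r1 r0 r2 s δ, j.Is → Bs j.M j.a r1 r0 r2 s δ → j.Rad r2 → ∃ x1, ∀ x0 ≥ x1,
    ∀ η > 0, ∃ e > 0, Evt j.M j.a r1 s δ fun P => ∀ d (T : Tg) J, T.Is P d →
      Adm (j.w x0) s 13 e {0}ᶜ J T.q → ∃ d', Con d' ∧ Ind T.g T.Xf J d' ∧
        Nr j s η (pp j.M (T.q true)) (pp j.M (T.q false)) d'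

/-- The induced data depend continuously on the metric. -/
def DLIP : Prop :=
  ∀ W g Xf (J : X → R4) d0 (A O : Set X), Lor g W Xf → PDy d0 → IsCompact A → IsOpen O → A ⊆ O →
    ContDiffOn ℝ ∞ J O → (∀ y ∈ O, y ≠ 0 ∧ J y ∈ W ∧ IndAt g Xf J d0 y) → ∀ ζ > 0, ∃ η > 0,
      ∀ K b g' D' X' d', Lor g' D' X' → MapsTo J A K → Emb K g Xf g' X' 12 η b → MapsTo b K D' →
        ∀ y ∈ interior A, (∀ᶠ z in 𝓝 y, IndAt g' X' (b ∘ J) d' z) → DJ 11 d' d0 y ζ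

/-- Admissible slices are slices in the sense of GT. -/
def SLC : Prop :=
  ∀ (j : Jd) r1 r0 r2 s δ, j.Is → Bs j.M j.a r1 r0 r2 s δ → j.Rad r2 → ∃ x1, ∀ x0 ≥ x1,
    ∃ e > 0, Evt j.M j.a r1 s δ fun P => ∀ d (T : Tg) J, T.Is P d →
      Adm (j.w x0) s 13 e {0}ᶜ J T.q → ∃ r3 ρ, Sl j.M j.a r1 r2 r3 T.g T.Xf ρ J

/-! ### The interior and the kick -/

/-- The family at another time. -/
def Jd.t (j : Jd) (T : ℝ) : Jd := { j with T := T }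

/-- The interior: countably many conditions imply GGp, and a kick enforces a condition. -/
def INT : Prop :=
  ∀ (j : Jd) (s Λ : ℝ), j.Is → 1 < s → ∀ w ∈ Ioc (0 : ℝ) (1 / 4), ∃ T ≥ 0, ∃ η > 0, ∃ ε > 0,
    ∃ (Big : ℕ → Dat → Prop) (sn : ℕ → Bool × Bool),
      (∀ p ∈ ball j.p0 ε, ∀ q ∈ ball j.p0 ε, ∀ d, Nr (j.t T) s η p q d → Con d →
        (∀ n, Big n d) → GGp d) ∧
      ∀ n, ∃ R0, ∀ R ≥ R0, ∃ x1, ∀ A ≥ Real.exp (-(j.k / 64) * R), ∀ p ∈ ball j.p0 ε,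
        ∀ q ∈ ball j.p0 ε, ∀ d1 d2, Nr (j.t T) s η p q d1 → Nr (j.t T) s η p q d2 →
          Kk (sn n).2 Λ R w A (Ud d1 (sn n).1) (Ud d2 (sn n).1) → ∃ ζ > 0, ∃ d0,
            (d0 = d1 ∨ d0 = d2) ∧ ∀ p' ∈ ball j.p0 ε, ∀ q' ∈ ball j.p0 ε, ∀ d,
              Nr (j.t T) s η p' q' d →
              (∀ y ∈ Rg (sd (sn n).2 (R + 2 * w) x1), DJ 11 d d0 y ζ) → Big n d

/-- The kick: data d' near d and a reference solution for d' which carries the kicked slice. -/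
def KCK : Prop :=
  ∃ Λ : ℝ, ∀ (j0 : Jd) (s δ : ℝ) (k0 : ℕ), j0.Is → j0.a ≠ 0 → |j0.a| < j0.M → 1 < s → 0 < δ →
    ∃ w0 > 0, ∀ w ∈ Ioc 0 w0, ∀ t ≥ 0, ∀ j, j = j0.t t → ∀ r1 r0 r2, Bs j.M j.a r1 r0 r2 s δ → j.Rad r2 →
    ∀ κ > 0, ∀ η > 0, ∃ x1, ∀ x0 ≥ x1, ∃ e > 0, Evt j.M j.a r1 s δ fun P =>
      ∀ (d : DA j.M j.a) (T : Tg) J d1 Z, T.Is P d.1 → Adm (j.w x0) s 13 e {0}ᶜ J T.q →
        Exact j Z J T.q → Con d1 → Ind T.g T.Xf J d1 →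
        Nr j s (η / 2) (pp j.M (T.q true)) (pp j.M (T.q false)) d1 → ∀ A, IsCompact A → (∀ x ∈ A, x ∈ D0 j.M j.a r1 ∧ r2 ≤ kr j.M j.a x) →
        (∀ x ∈ A, ∃ y ∈ Rc Z, Cv T.g T.Xf A x (J y)) →
        ∀ (m : ℕ), ∀ η0 > 0, ∀ σ b, ∃ R1, ∀ R ≥ R1, ∀ x2, ∃ A0 ≥ Real.exp (-κ * R),
          ∃ d' : DA j.M j.a, qm m d'.1 d.1 < ENNReal.ofReal η0 ∧ ∃ W g Xf τ V d2,
            Ref (P.n k0) r0 W g Xf τ V d'.1 T.q ∧ A ⊆ KV W τ (V - 1) ∧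
            MapsTo J (Rc (sd b (R + 9 / 4 * w) x2)) (KV W τ (V - 1)) ∧
            (∀ x ∈ A, (∀ᶠ z in 𝓝 x, g z = T.g z ∧ Xf z = T.Xf z) ∧
              (x.1 = 0 → d'.1.h (xs x) = d.1.h (xs x))) ∧
            Nr j s η (pp j.M (T.q true)) (pp j.M (T.q false)) d2 ∧
            Kk b Λ R w A0 (Ud d1 σ) (Ud d2 σ) ∧
            ∀ y ∈ Rg (sd b (R + 9 / 4 * w) x2), IndAt g Xf J d2 y

end Vale.Agent.P354YM
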