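import Vale.Agent.P354KX.Defs

/-!
The lens of the kicked metric: the exact statement.
-/

open scoped ContDiff
open Set Filter Topology

noncomputable section

namespace Vale.Agent.P354YM

open Vale.Agent.P354n (R4)
open Vale.Agent.P354H (X3)
open Vale.Agent.P354C (Ix met)
open Vale.Agent.P354I (X Dat)
open Vale.Agent.P354J (PDy)
open Vale.Agent.P354R (Pull)
open Vale.Agent.P354GT (Fu)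
open Vale.Agent.P354XE (Tw pt xs D0 Lor Sl)
open Vale.Agent.P354XU (IndAt)
open Vale.Agent.P354XB (Win)
open Vale.Agent.P354KX

/-- The objects. -/
structure Ko where
  (M a r1 r2 r3 R w δ1 δ2 δ' V x2 : ℝ)
  (g g' : Tw)
  (D W A : Set R4)
  (Xf X' : R4 → R4)
  (ρ τ : R4 → ℝ)
  J : X → R4
  (b σ : Bool)
  (T δ : Bool → ℝ)
  U : Bool → R4 → Ix → ℝ
  U' : R4 → Ix → ℝ
  Ψ : Bool → R4 → R4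
  j : Bool → X3 → X
  f : X → ℝ
  (d d' : Dat)

abbrev Ko.K (k : Ko) (v : ℝ) : Set R4 := KV k.W k.τ v
abbrev Ko.B (k : Ko) : Set R4 := Bk (k.T k.σ) k.δ2 k.R k.w
abbrev Ko.S (k : Ko) : Set R4 := k.Ψ k.σ '' Sk (k.T k.σ) k.δ2 k.R k.w
abbrev Ko.W' (k : Ko) : Set R4 := k.Ψ k.σ '' k.B ∪ k.D \ k.S
abbrev Ko.Z (k : Ko) : Set X := Rc (sd k.b (k.R + 9 / 4 * k.w) k.x2)

/-- The hypotheses. -/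
structure Ko.Is (k : Ko) : Prop where
  lor : Lor k.g k.D k.Xf
  sl : Sl k.M k.a k.r1 k.r2 k.r3 k.g k.Xf k.ρ k.J
  sb : ∀ s, Sb k.g k.D k.Xf k.J k.b s (k.T s) (k.δ s) k.R k.w (k.U s) (k.Ψ s) (k.j s) ∧
    k.δ1 < k.δ s
  d2 : k.δ2 ∈ Ioc 0 k.δ1 ∧ k.δ2 < k.δ' ∧ k.δ' ≤ k.δ k.σ
  two : Two k.T k.δ k.δ1 k.δ2 k.R k.w k.Ψ
  lens : Lens k.W k.g k.Xf k.τ k.V k.d
  sub : k.W ⊆ k.D ∧ k.K k.V ⊆ D0 k.M k.a k.r1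
  cb : ∀ s, ∀ p ∈ Cb (k.T s) k.δ1 k.R k.w, 0 ≤ p.1 → k.Ψ s p ∈ k.K (k.V - 1)
  top : MapsTo k.J k.Z (k.K (k.V - 1))
  low : ∀ x ∈ k.A, x ∈ k.K (k.V - 1) ∧
    ∃ y ∈ Rc (sd k.b (k.R - 3 * k.w) k.x2), Cv k.g k.Xf k.A x (k.J y)
  f1 : ContinuousOn k.f {0}ᶜ
  f2 : ∀ s, ∀ z ∈ Win k.R k.w 6, k.f (k.j s z) = cl k.R k.w z.1
  f3 : ∀ y ≠ 0, (∀ s, y ∉ k.j s '' Nz k.R k.w) →
    k.f y = k.R - 11 / 4 * k.w ∨ k.f y = k.R + 15 / 4 * k.w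
  fu : Fu k.U' (Bk (k.T k.σ) k.δ' k.R k.w)
  eq : ∀ p ∈ Bk (k.T k.σ) k.δ' k.R k.w, vv p ≤ k.R - 3 / 2 * k.w ∨ 3 ≤ ‖p.2.2‖ →
    k.U' p = k.U k.σ p
  lor' : Lor k.g' k.W' k.X'
  pull : Pull (k.Ψ k.σ) (met k.U') k.B k.g' k.W'
  fut : ∀ p ∈ k.B, k.g' (k.Ψ k.σ p) (fderiv ℝ (k.Ψ k.σ) p nv) (k.X' (k.Ψ k.σ p)) < 0
  off : ∀ x ∉ k.S, k.g' x = k.g x ∧ k.X' x = k.Xf x
  pd : PDy k.d'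
  i1 : ∀ z, (0, z) ∈ k.B → IndAt k.g' k.X' (pt 0) k.d' (k.j k.σ z)
  i2 : ∀ y ≠ 0, k.f y ≤ k.R + 5 / 2 * k.w → pt 0 y ∉ k.S →
    k.d'.h y = k.d.h y ∧ k.d'.K y = k.d.K y

/-- KL: the lens of the kicked metric. -/
def KL : Prop :=
  ∀ k : Ko, k.Is → ∃ W' τ' V', Lens W' k.g' k.X' τ' V' k.d' ∧ KV W' τ' V' ⊆ k.K k.V ∧
    (∀ x ∈ KV W' τ' V', x ∉ k.S ∨ ∃ p ∈ k.B, 0 ≤ p.1 ∧ x = k.Ψ k.σ p) ∧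
    k.A ⊆ KV W' τ' (V' - 1) ∧ MapsTo k.J k.Z (KV W' τ' (V' - 1)) ∧
    (∀ x ∈ k.A, x ∉ k.S ∧ (x.1 = 0 → k.d'.h (xs x) = k.d.h (xs x))) ∧
    ∀ y ∈ k.Z, k.J y ∈ k.S →
      ∃ z ∈ P354YX.Tw k.R k.w, z.1 ≤ k.R + 9 / 4 * k.w ∧ y = lb k.b k.σ z

end Vale.Agent.P354YM
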