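import Vale.Agent.P354YM.Props
import Vale.Agent.P354XQ.Top

/-!
Basic facts for the game.
-/

open scoped ContDiff
open Set Filter Topology

noncomputable section

namespace Vale.Agent.P354YM

open Vale.Agent.P354n (R4)
open Vale.Agent.P354I (X Dat P3 pd)
open Vale.Agent.P354J (PDy)
open Vale.Agent.P354D (sgn)
open Vale.Agent.P354XS (DA BA qm wi)
open Vale.Agent.P354XE
open Vale.Agent.P354XU (Jt IndAt)

/-! ### The quantifier Evt -/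

section
variable {M a r1 s δ : ℝ} {Q Q' : Pm → Prop}

theorem Evt.and (h : Evt M a r1 s δ Q) (h' : Evt M a r1 s δ Q') :
    Evt M a r1 s δ fun P => Q P ∧ Q' P := by
  obtain ⟨θ0, p0, h⟩ := h
  obtain ⟨θ1, p1, h'⟩ := h'
  refine ⟨min θ0 θ1, lt_min p0 p1, fun θ hθ => ?_⟩
  obtain ⟨R0, h⟩ := h θ ⟨hθ.1, hθ.2.trans_le (min_le_left _ _)⟩
  obtain ⟨R1, h'⟩ := h' θ ⟨hθ.1, hθ.2.trans_le (min_le_right _ _)⟩
  refine ⟨max R0 R1, fun R hR => ?_⟩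
  obtain ⟨N0, h⟩ := h R ((le_max_left _ _).trans hR)
  obtain ⟨N1, h'⟩ := h' R ((le_max_right _ _).trans hR)
  refine ⟨max N0 N1, fun N hN => ?_⟩
  obtain ⟨e0, q0, h⟩ := h N ((le_max_left _ _).trans hN)
  obtain ⟨e1, q1, h'⟩ := h' N ((le_max_right _ _).trans hN)
  exact ⟨min e0 e1, lt_min q0 q1, fun ε hε => ⟨h ε ⟨hε.1, hε.2.trans (min_le_left _ _)⟩,
    h' ε ⟨hε.1, hε.2.trans (min_le_right _ _)⟩⟩⟩

theorem Evt.mono (h : Evt M a r1 s δ Q) (k : ∀ θ R ε N, Q ⟨M, a, r1, θ, R, s, δ, ε, N⟩ →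
    Q' ⟨M, a, r1, θ, R, s, δ, ε, N⟩) : Evt M a r1 s δ Q' := by
  obtain ⟨θ0, p0, h⟩ := h
  refine ⟨θ0, p0, fun θ hθ => ?_⟩
  obtain ⟨R0, h⟩ := h θ hθ
  refine ⟨R0, fun R hR => ?_⟩
  obtain ⟨N0, h⟩ := h R hR
  refine ⟨N0, fun N hN => ?_⟩
  obtain ⟨e0, q0, h⟩ := h N hN
  exact ⟨e0, q0, fun ε hε => k _ _ _ _ (h ε hε)⟩

/-- The basic smallness conditions. -/
theorem evt_basic {θ0 e : ℝ} (h : 0 < θ0) (h' : 0 < e) (R0 : ℝ) (N0 : ℕ) : Evt M a r1 s δ fun P =>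
    P.θ ∈ Ioo 0 θ0 ∧ R0 ≤ P.R ∧ N0 ≤ P.N ∧ P.ε ∈ Ioc 0 e :=
  ⟨θ0, h, fun _ a => ⟨R0, fun _ b => ⟨N0, fun _ c => ⟨e, h', fun _ d => ⟨a, b, c, d⟩⟩⟩⟩⟩

end

/-! ### Ranges -/

section
variable {Z Z' : Bool → ℝ} {σ : Bool} {y : X} {x : ℝ}

theorem sgn_sq (σ : Bool) : sgn σ * sgn σ = 1 := by cases σ <;> simp [sgn]

theorem lg_not (σ : Bool) (y : X) : lg (!σ) y = -lg σ y := by cases σ <;> simp [lg, sgn]

theorem lg_le (σ : Bool) (y : X) : lg σ y ≤ |Real.log ‖y‖| := by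
  cases σ
  · simpa [lg, sgn] using neg_le_abs _
  · simpa [lg, sgn] using le_abs_self _

theorem dl_ne (h : y ≠ 0) : dl σ x y ≠ 0 := smul_ne_zero (Real.exp_pos _).ne' h

theorem lg_dl (h : y ≠ 0) : lg σ (dl σ x y) = x + lg σ y := by
  have := norm_pos_iff.2 h
  rw [lg, dl, norm_smul, Real.norm_eq_abs, abs_of_pos (Real.exp_pos _),
    Real.log_mul (Real.exp_pos _).ne' this.ne', Real.log_exp, mul_add, ← mul_assoc, sgn_sq, one_mul,
    lg]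

theorem dl_cont (σ : Bool) (x : ℝ) : Continuous (dl σ x) := by
  unfold dl
  fun_prop

theorem lg_cont (h : y ≠ 0) : ContinuousAt (lg σ) y :=
  continuousAt_const.mul (continuous_norm.continuousAt.log (norm_ne_zero_iff.2 h))

theorem rg_open (Z : Bool → ℝ) : IsOpen (Rg Z) := isOpen_iff_mem_nhds.2 fun y hy => by
  filter_upwards [isOpen_compl_singleton.mem_nhds hy.1, eventually_all.2 fun σ =>
    (lg_cont (σ := σ) hy.1).eventually_lt_const (hy.2 σ)] with z z1 z2 using ⟨z1, z2⟩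

theorem rg_rc : Rg Z ⊆ Rc Z := fun _ h => ⟨h.1, fun σ => (h.2 σ).le⟩

theorem rc_rg (h : ∀ σ, Z σ < Z' σ) : Rc Z ⊆ Rg Z' :=
  fun _ k => ⟨k.1, fun σ => (k.2 σ).trans_lt (h σ)⟩

theorem rg_mono (h : ∀ σ, Z σ ≤ Z' σ) : Rg Z ⊆ Rg Z' :=
  fun _ k => ⟨k.1, fun σ => (k.2 σ).trans_le (h σ)⟩

theorem rg_ne : Rg Z ⊆ {0}ᶜ := fun _ h => h.1

theorem rc_ne : Rc Z ⊆ {0}ᶜ := fun _ h => h.1

theorem rc_cpt (Z : Bool → ℝ) : IsCompact (Rc Z) := by
  have e : Rc Z = Metric.closedBall 0 (Real.exp (Z true)) ∩ {y | Real.exp (-Z false) ≤ ‖y‖} := by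
    ext y
    simp only [Rc, mem_ofPred_eq, mem_inter_iff, mem_closedBall_zero_iff, Bool.forall_bool, lg, sgn,
      cond_false, cond_true, one_mul, neg_mul]
    constructor
    · rintro ⟨h0, h1, h2⟩
      have := norm_pos_iff.2 h0
      exact ⟨(Real.log_le_iff_le_exp this).1 h2, (Real.le_log_iff_exp_le this).1 (by linarith)⟩
    · rintro ⟨h1, h2⟩
      have := (Real.exp_pos _).trans_le h2
      exact ⟨norm_pos_iff.1 this, by linarith [(Real.le_log_iff_exp_le this).2 h2],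
        (Real.log_le_iff_le_exp this).2 h1⟩
  rw [e]
  exact (isCompact_closedBall _ _).inter_right (isClosed_le continuous_const continuous_norm)

theorem mem_rg (h : y ≠ 0) (k : ∀ σ, |Real.log ‖y‖| < Z σ) : y ∈ Rg Z :=
  ⟨h, fun σ => (lg_le σ y).trans_lt (k σ)⟩

theorem ray_rg (h : ∀ σ, 0 < Z σ) : Ray (Rg Z) := by
  refine ⟨fun _ h => h.1, fun σ y hy x hx => ⟨dl_ne hy.1, fun σ' => ?_⟩⟩
  have e := lg_dl (σ := σ) (x := -x) hy.1
  by_cases k : σ' = σ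
  · rw [k, e]
    linarith [hy.2 σ, hx.1]
  · rw [Bool.eq_not_of_ne k, lg_not, e]
    linarith [h (!σ), hx.2]

theorem ray_all : Ray {0}ᶜ := ⟨fun _ h => h, fun _ _ hy _ _ => dl_ne hy⟩

/-- The shell about x lies in the range. -/
theorem shell (h : y ≠ 0) (h1 : lg σ y ∈ Icc (-1) 1) (h2 : 1 ≤ x) (h3 : x + 1 < Z σ)
    (h4 : 0 < Z (!σ)) : dl σ x y ∈ Rg Z := by
  refine ⟨dl_ne h, fun σ' => ?_⟩
  have e := lg_dl (σ := σ) (x := x) h
  by_cases k : σ' = σ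
  · rw [k, e]
    linarith [h1.2]
  · rw [Bool.eq_not_of_ne k, lg_not, e]
    linarith [h1.1]

end

/-! ### Jets, location, induced data -/

theorem jt_mono {E V : Type} [NormedAddCommGroup E] [NormedSpace ℝ E] [NormedAddCommGroup V]
    [NormedSpace ℝ V] {k : ℕ} {f : E → V} {x : E} {c c' : ℝ} (h : Jt k f x c) (hc : c ≤ c') :
    Jt k f x c' := fun j hj => (h j hj).trans hc

theorem jt_congr {E V : Type} [NormedAddCommGroup E] [NormedSpace ℝ E] [NormedAddCommGroup V]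
    [NormedSpace ℝ V] {k : ℕ} {f g : E → V} {x : E} {c : ℝ} (h : Jt k f x c) (e : g =ᶠ[𝓝 x] f) :
    Jt k g x c := fun j hj => by
  rw [(e.iteratedFDeriv ℝ j).eq_of_nhds]
  exact h j hj

section
variable {j : Jd} {n : ℕ} {J J' : X → R4} {q : Par} {σ : Bool} {O O' O1 : Set X} {I : Set ℝ}
  {x c φ e e' s : ℝ}

theorem LocAt.mono (h : LocAt j n J q σ O I x c φ e) (he : e ≤ e') :
    LocAt j n J q σ O I x c φ e' :=
  fun y y0 y1 y2 => ⟨(h y y0 y1 y2).1, jt_mono (h y y0 y1 y2).2 he⟩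

/-- Change of the slice and of the range. -/
theorem LocAt.congr (h : LocAt j n J q σ O I x c φ e) (h1 : IsOpen O1) (h2 : EqOn J' J O1)
    (h3 : ∀ y ≠ 0, lg σ y ∈ I → dl σ x y ∈ O' → dl σ x y ∈ O ∧ dl σ x y ∈ O1) :
    LocAt j n J' q σ O' I x c φ e := fun y y0 y1 y2 => by
  obtain ⟨k1, k2⟩ := h3 y y0 y1 y2
  refine ⟨h2 k2 ▸ (h y y0 y1 k1).1, jt_congr (h y y0 y1 k1).2 ?_⟩
  filter_upwards [(dl_cont σ x).continuousAt.preimage_mem_nhds (h1.mem_nhds k2)] with z hz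
  rw [h2 hz]

theorem wt_mono (he : e ≤ e') (hx : 0 ≤ x) : e * (1 + x) ^ (-s) ≤ e' * (1 + x) ^ (-s) :=
  mul_le_mul_of_nonneg_right he (Real.rpow_nonneg (by linarith) _)

theorem Adm.mono {q : Bool → Par} (h : Adm j s n e O J q) (he : e ≤ e') (h0 : 0 ≤ j.X0) :
    Adm j s n e' O J q :=
  ⟨h.sm, fun y y0 y1 => jt_mono (h.mid y y0 y1) he, fun σ x hx =>
    let ⟨c, φ, k⟩ := h.box σ x hx
    ⟨c, φ, k.mono (wt_mono he (h0.trans hx))⟩⟩

theorem Adm.congr {q : Bool → Par} (h : Adm j s n e O J q) (hO : IsOpen O) (h2 : EqOn J' J O) :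
    Adm j s n e O J' q :=
  ⟨h.sm.congr h2, fun y y0 y1 => jt_congr (h.mid y y0 y1) (by
    filter_upwards [hO.mem_nhds y0] with z hz
    simp only [Pi.sub_apply, h2 hz]), fun σ x hx =>
    let ⟨c, φ, k⟩ := h.box σ x hx
    ⟨c, φ, k.congr hO h2 fun _ _ _ k => ⟨k, k⟩⟩⟩

theorem Last.mono {q : Bool → Par} {Z : Bool → ℝ} (h : Last j s n e Z J q) (he : e ≤ e')
    (h0 : ∀ σ, 0 ≤ Z σ) : Last j s n e' Z J q := fun σ =>
  let ⟨c, φ, k⟩ := h σ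
  ⟨c, φ, k.mono (wt_mono he (h0 σ))⟩

theorem Last.congr {q : Bool → Par} {Z : Bool → ℝ} (h : Last j s n e Z J q)
    (h2 : EqOn J' J (Rg Z)) : Last j s n e Z J' q := fun σ =>
  let ⟨c, φ, k⟩ := h σ
  ⟨c, φ, k.congr (rg_open Z) h2 fun _ _ _ k => ⟨k, k⟩⟩

theorem pd_ev {y : X} (e : J' =ᶠ[𝓝 y] J) (i : Fin 3) : pd i J' =ᶠ[𝓝 y] pd i J :=
  (e.fderiv (𝕜 := ℝ)).mono fun _ h => congrArg (fun L : X →L[ℝ] R4 => L (P354I.ee i)) h

theorem indAt_congr {g : Tw} {Xf : R4 → R4} {d : Dat} {y : X} (h : IndAt g Xf J d y)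
    (e : J' =ᶠ[𝓝 y] J) : IndAt g Xf J' d y := by
  obtain ⟨G, n, h⟩ := h
  refine ⟨G, n, ?_⟩
  simpa only [e.eq_of_nhds, fun i => (pd_ev e i).eq_of_nhds,
    fun i k => (pd_ev (pd_ev e k) i).eq_of_nhds] using h

end

theorem Par.near_mono {q : Par} {M a e e' : ℝ} (h : q.Near M a e) (k : e ≤ e') : q.Near M a e' :=
  ⟨h.1.trans_le k, h.2.1.trans_le k, h.2.2.1.trans_le k, h.2.2.2.1,
    fun i j => (h.2.2.2.2 i j).trans_le k⟩

theorem pp_mem {q : Par} {M a e : ℝ} (h : q.Near M a e) : pp M q ∈ Metric.ball (M, a, M) e := by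
  have := (abs_nonneg _).trans_lt h.1
  simp only [pp, Metric.mem_ball, Prod.dist_eq, Real.dist_eq, max_lt_iff, sub_self, abs_zero]
  exact ⟨h.1, h.2.1, this⟩

theorem Cls.mono {P : Pm} {K K' : Set R4} {g : Tw} {Xf : R4 → R4} {q : Bool → Par}
    (h : Cls P K g Xf q) (k : K' ⊆ K) : Cls P K' g Xf q :=
  ⟨h.par, fun σ p a b c => h.near σ p a b (k c), fun p a => h.mid p (k a),
    fun σ p a b c => h.conv σ p a b (k c)⟩

theorem Nr.mono {j : Jd} {s η η' : ℝ} {p q : P3} {d : Dat} (h : Nr j s η p q d) (k : η ≤ η') :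
    Nr j s η' p q d := ⟨h.1, h.2.trans_le (ENNReal.ofReal_le_ofReal k)⟩

theorem kv_mono {W : Set R4} {τ : R4 → ℝ} {V V' : ℝ} (h : V ≤ V') : KV W τ V ⊆ KV W τ V' :=
  fun _ k => ⟨k.1, k.2.1, k.2.2.trans h⟩

theorem Emb.mono {K : Set R4} {g g' : Tw} {Xf X' b : R4 → R4} {n n' : ℕ} {η : ℝ}
    (h : Emb K g Xf g' X' n η b) (k : n' ≤ n) : Emb K g Xf g' X' n' η b :=
  ⟨h.sm, h.id, fun p hp i hi => h.cl p hp i (hi.trans k), h.inj, h.fut, h.pos⟩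

/-- On compact sets the seminorms bound the jets. -/
theorem dj_of_qm {S : Set X} (hS : IsCompact S) (h0 : S ⊆ {0}ᶜ) (m : ℕ) {η : ℝ} (hη : 0 < η) :
    ∃ η' > 0, ∀ d' d : Dat, qm m d' d ≤ ENNReal.ofReal η' → ∀ y ∈ S, DJ m d' d y η := by
  have key : ∀ w : X → ℝ, ContinuousOn w {0}ᶜ → (∀ y ≠ 0, 0 < w y) →
      ∃ c > 0, ∀ y ∈ S, ∀ i ≤ m, c ≤ w y * ‖y‖ ^ (2 + i) := fun w w1 w2 => by
    have h1 : ∀ i : ℕ, ∃ c > 0, ∀ y ∈ S, c ≤ w y * ‖y‖ ^ (2 + i) := fun i => by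
      obtain ⟨c, c0, hc⟩ := hS.exists_forall_le' (f := fun y => w y * ‖y‖ ^ (2 + i))
        ((w1.mono h0).mul (by fun_prop)) (a := 0)
        fun y hy => mul_pos (w2 y (h0 hy)) (pow_pos (norm_pos_iff.2 (h0 hy)) _)
      exact ⟨c, c0, hc⟩
    choose c c0 hc using h1
    obtain ⟨i0, -, h2⟩ := (Finset.range (m + 1)).exists_min_image c ⟨0, by simp⟩
    exact ⟨c i0, c0 i0, fun y hy i hi => (h2 i (Finset.mem_range.2 (by omega))).trans (hc i y hy)⟩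
  obtain ⟨c, c0, hc⟩ := key wi (fun y hy => (ContinuousAt.inv₀ (continuous_norm.continuousAt.add
    (continuous_norm.continuousAt.inv₀ (norm_ne_zero_iff.2 hy))) (add_pos (norm_pos_iff.2 hy) (inv_pos.2 (norm_pos_iff.2 hy))).ne').continuousWithinAt) fun _ => P354XQ.wi_pos
  obtain ⟨c', c1, hc'⟩ := key 1 continuousOn_const fun _ _ => one_pos
  have m0 := lt_min c0 c1
  refine ⟨min c c' * η, by positivity, fun d' d h y hy i k => ⟨fun l hl => ?_, fun l hl => ?_⟩⟩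
  · refine le_of_mul_le_mul_left (le_trans ?_
      (P354XQ.le_of_wq hl (by positivity) (P354XQ.qm_parts h i k).1 (h0 hy))) m0
    exact mul_le_mul_of_nonneg_right ((min_le_left _ _).trans (hc y hy l hl)) (norm_nonneg _)
  · refine le_of_mul_le_mul_left (le_trans ?_
      (P354XQ.le_of_wq hl (by positivity) (P354XQ.qm_parts h i k).2 (h0 hy))) m0
    exact mul_le_mul_of_nonneg_right ((min_le_right _ _).trans (hc' y hy l hl)) (norm_nonneg _)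

end Vale.Agent.P354YM
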