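import Vale.Agent.P354NU.Zd
import Vale.Agent.P354EF.Shell
import Vale.Agent.P354YR.Nfo
import Vale.Agent.P354TS.Alp

/-! ZR: the factor of the affine parameter and the defect along the rays. -/

open scoped ContDiff
open Set Filter Topology

noncomputable section

namespace Vale.Agent.P354YM

open Vale.Agent.P354n (R4)
open Vale.Agent.P354XG (E6)
open Vale.Agent.P354XD (pj cd_pj)
open Vale.Agent.P354XR (rd_pj)
open Vale.Agent.P354XE (Tw pb Bd rd)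
open Vale.Agent.P354XO (Om dnf pj_sc)
open Vale.Agent.P354YI (Jb jb_const)
open Vale.Agent.P354CQ Vale.Agent.P354MG Vale.Agent.P354NU

theorem zr_bd {n m : ℕ} {h : Tw} {p : R4} {c c' : ℝ} (a : Bd m h p c) (k : n ≤ m) (l : c ≤ c') :
    Bd n h p c' := fun j hj v w =>
  (a j (hj.trans k) v w).trans (mul_le_mul_of_nonneg_right l (by positivity))

theorem zr_cube {M M' : ℝ} (h : 0 < M) (h' : 0 < M') :
    ∃ k > 0, k ^ 3 * M' = M ∧ |k⁻¹ - 1| ≤ M⁻¹ * |M' - M| := by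
  obtain ⟨c, c0, hc⟩ : ∃ c > 0, c ^ 3 = M' / M := ⟨(M' / M) ^ ((3 : ℕ) : ℝ)⁻¹,
    Real.rpow_pos_of_pos (div_pos h' h) _, Real.rpow_inv_natCast_pow (div_pos h' h).le (by simp)⟩
  refine ⟨c⁻¹, inv_pos.2 c0, by rw [inv_pow, hc]; field_simp, ?_⟩
  have e : M⁻¹ * (M' - M) = (c - 1) * (c ^ 2 + c + 1) := by
    rw [mul_sub, inv_mul_cancel₀ h.ne', mul_comm, ← div_eq_mul_inv, ← hc]; ring
  rw [inv_inv, ← abs_of_pos (inv_pos.2 h), ← abs_mul, e, abs_mul]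
  exact le_mul_of_one_le_right (abs_nonneg _) (le_abs.2 (.inl (by nlinarith)))

theorem zr (zc : ZC) : ZR := fun f o n => by
  obtain ⟨a0, -, -, -, a1, a2, a3, a4, a5⟩ := nums o
  have eR : f.R = f.z.R1 + 9 / 4 := rfl
  obtain ⟨m, sh⟩ := P354EF.shell_ok P354YR.nf_ok f.z.M f.z.a f.z.R1 f.A f.B n o.nu.th
  refine ⟨max n m, le_max_left _ _, fun C hC ρ => ?_⟩
  obtain ⟨K, K1, e, e0, zc⟩ := zc f o (max n m) C hC ρ
  obtain ⟨Cs, es, es0, sh⟩ := sh ρ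
  obtain ⟨Ca, ea, ea0, al⟩ := P354TS.alp f.z.M f.z.a f.R n (sub o) (by linarith)
  obtain ⟨D, d1, d2, d3⟩ : ∃ D, K ≤ D ∧ Cs * K ≤ D ∧ f.z.M⁻¹ ≤ D :=
    ⟨max K (max _ _), le_max_left _ _, le_max_of_le_right (le_max_left _ _),
      le_max_of_le_right (le_max_right _ _)⟩
  have D0 : 0 < D := by linarith
  obtain ⟨ε, ε0, n1, n2, n3, n4⟩ : ∃ ε > 0, ε ≤ e ∧ ε ≤ f.z.M / 2 ∧ D * ε ≤ es ∧ D * ε ≤ ea := by
    refine ⟨min (min e (f.z.M / 2)) (min es ea / D), by positivity, (min_le_left _ _).trans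
      (min_le_left _ _), (min_le_left _ _).trans (min_le_right _ _), ?_, ?_⟩
    exacts [((le_div_iff₀' D0).1 (min_le_right _ _)).trans (min_le_left _ _),
      ((le_div_iff₀' D0).1 (min_le_right _ _)).trans (min_le_right _ _)]
  refine ⟨max D (Ca * D), ε, ε0, fun ρ' hρ Rs Rb v k E e0' hs hb I x hx xρ μ ν l1 l2 l3 W r => ?_⟩
  have hs' : f.z.R1 + 1 ≤ Rs := by linarith
  have μ0 := W.nn
  have xD : x ∈ Om (f.D Rs v.Lv) := ⟨hx.1.1, hx.2⟩
  have xp := p6 o xD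
  have m1 : ∀ c, c ≤ D → ∀ t, 0 ≤ t → t ≤ ν → c * t ≤ D * ε := fun c hc t t0 t1 =>
    mul_le_mul hc (t1.trans l3) t0 D0.le
  have m2 : ∀ c, c ≤ D → c * μ ≤ D * μ := fun c hc => mul_le_mul_of_nonneg_right hc μ0
  have m3 : D * μ ≤ max D (Ca * D) * μ := mul_le_mul_of_nonneg_right (le_max_left _ _) μ0
  have pe : |v.M - f.z.M| + |v.a - f.z.a| ≤ D * ε := by
    have := m1 1 (K1.trans d1) ν (μ0.trans l1) le_rfl
    linarith [I.par]
  have mem : ∀ s, f.z.R1 + 1 ≤ s → s ≤ x.2.1 → anc s x ∈ Om (f.D Rs v.Lv) := fun s =>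
    ray_mem o hs' xD I.lw
  have Q : ∀ s, f.z.R1 + 1 ≤ s → s ≤ x.2.1 → Qc f (max n m) K v Rs Rb (anc s x) μ ν :=
    fun s s1 s2 => zc ρ' hρ Rs Rb v k E e0' hs hb I (anc s x)
      ⟨⟨(mem s s1 s2).1, s2.trans_lt hx.1.2⟩, hx.2⟩ (s2.trans xρ) μ ν l1 l2 (l3.trans n1) W
  obtain ⟨κ, k1, k2, k3⟩ : ∃ κ, |κ - 1| ≤ D * ν ∧ (x.1 < f.us → κ = 1) ∧
      ∀ s ∈ Icc f.R x.2.1, Jb n (dfc (f.phi v) κ) (pj (anc s x)) (D * μ) := by
    rcases lt_or_ge x.1 (f.ti + 2) with u | u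
    · exact ⟨1, by simpa using mul_nonneg D0.le (μ0.trans l1), fun _ => rfl, fun s hs =>
        ((Q s (by linarith [hs.1]) hs.2).df u).mono (le_max_left _ _) (m2 K d1)⟩
    have pm : |v.M - f.z.M| ≤ ν := by linarith [I.par, abs_nonneg (v.a - f.z.a)]
    obtain ⟨c, c0, c1, c2⟩ := zr_cube a0 (show 0 < v.M by linarith [(abs_le.1 pm).1])
    refine ⟨c⁻¹, c2.trans (mul_le_mul d3 pm (abs_nonneg _) D0.le), fun h => by linarith,
      fun s hs => ?_⟩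
    have p := anc_p6 (s := s) hx.2 (by linarith [hs.1])
    have rs : rd (pj (anc s x)) = s := rd_pj p.1 p.2
    refine (sh (f.z.pm Rs Rb) f.z.κ v.g (f.phi v) v.M v.a v.A v.B c (K * μ) (pj (anc s x))
      (o.ok.ok Rs hs' Rb hb).1 rfl rfl rfl rfl I.nth.th (pe.trans n3) c0 c1
      (by linarith [hs.1]) (by linarith [hs.2, hρ.2]) ⟨by positivity, (m1 K d1 μ μ0 l1).trans n3⟩
      fun t ht => ?_).mono le_rfl (by rw [← mul_assoc]; exact m2 _ d2)
    rw [rs] at ht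
    have t2 := ht.2.trans hs.2
    have y := mem t ht.1 t2
    obtain ⟨s1, s2⟩ := sw_of o hs' hb y (show f.z.R1 ≤ t by linarith [ht.1])
      ((late o y.1.1 (p6 o y) (show f.ti - 3 < x.1 by linarith)).2
        (show _ < t by linarith [ht.1]))
    rw [ray_pj p]
    exact ⟨(I.fst _ s1 s2.2).mono fun _ h => h.1, (Q t ht.1 t2).nid.mono (le_max_right _ _)
      ((m1 K d1 ν (μ0.trans l1) le_rfl).trans n3), zr_bd ((Q t ht.1 t2).bd s2) (le_max_right _ _)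
        le_rfl⟩
  have y := mem f.R (by linarith) r
  have yp := p6 o y
  have k4 := fun s hs => (k3 s hs).mono le_rfl m3
  have k5 := k1.trans (mul_le_mul_of_nonneg_right (le_max_left D (Ca * D)) (μ0.trans l1))
  rcases lt_or_ge x.1 f.us with u | u
  · refine ⟨contDiffAt_const.congr_of_eventuallyEq (alf_ev' u), κ, k5, ?_, k4⟩
    have e1 : dnf (f.al v) =ᶠ[𝓝 (pj (anc f.R x))] fun _ => 1 := dnf_alf yp
      ((continuousAt_fst.eventually_lt_const (show (anc f.R x).1 < f.us from u)).mono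
        fun _ h _ _ => if_pos h)
    refine ((jb_const n (0 : ℝ) _).mono le_rfl ?_).congr (e1.mono fun q h => ?_)
    · rw [norm_zero]; exact (mul_nonneg D0.le μ0).trans m3
    · simp only [h, k2 u, sub_self]
  obtain ⟨-, s2⟩ := sw_of o hs' hb y (show f.z.R1 ≤ f.R by linarith)
    (seam o yp le_rfl (show _ < x.1 by linarith))
  have q := Q f.R (by linarith) r
  obtain ⟨b1, b2⟩ := al (f.h v) (f.phi v) v.M v.a v.A v.B κ (D * μ) (pj (anc f.R x)) I.nth.th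
    (pe.trans n4) (k1.trans ((m1 D le_rfl ν (μ0.trans l1) le_rfl).trans n4)) (rd_pj yp.1 yp.2)
    ⟨by positivity, (m1 D le_rfl μ μ0 l1).trans n4⟩
    ((Gm.sb I.toGm s2).pull ((th o).st_cd yp)) (q.nid.mono (le_max_left _ _)
      ((m1 K d1 ν (μ0.trans l1) le_rfl).trans n4)) (k3 _ ⟨le_rfl, r⟩)
    (zr_bd (q.bd s2) (le_max_left _ _) (m2 K d1))
  refine ⟨(b1.comp x (f := fun y => pj (anc f.R y)) ((cd_pj (x := anc f.R x) hx.2).comp x
    (anc_sm f.R).contDiffAt)).congr_of_eventuallyEq (al_ev o hs' hb I.toGm y u), κ, k5, ?_, k4⟩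
  have e1 : dnf (f.al v) =ᶠ[𝓝 (pj (anc f.R x))] al4 f.R (f.h v) (f.phi v) := by
    refine dnf_alf yp ?_
    filter_upwards [al_ev o hs' hb I.toGm (x := anc f.R x) y u, p6_open.mem_nhds yp] with
      w h1 h2 z hz
    rw [← al4_anc (by linarith) h2, ← h1, Fx.al, alf, alf,
      show anc f.R (P354XO.sc z w) = P354XO.sc z (anc f.R w) from rfl, pj_sc hz]
    rfl
  refine (b2.mono le_rfl ?_).congr (e1.mono fun q h => congrArg (· - κ) h)
  rw [← mul_assoc]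
  exact mul_le_mul_of_nonneg_right (le_max_right _ _) μ0

end Vale.Agent.P354YM
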