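import Vale.Agent.P354XE.Iface
import Vale.Agent.P354XU.Defs
import Vale.Agent.P354XM.Defs
import Vale.Agent.P354YJ.JDefs
import Vale.Agent.P354YR.Defs

/-!
The conditional track: definitions for the game.
-/

open scoped ContDiff
open MeasureTheory Set Filter Topology Matrix

noncomputable section

namespace Vale.Agent.P354YM

open Vale.Agent.P354n (R4 mink)
open Vale.Agent.P354H (X3 pdl)
open Vale.Agent.P354C (Ix)
open Vale.Agent.P354I (X Dat P3 IsKF rm rp pm mix Con r2)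
open Vale.Agent.P354J (PDy)
open Vale.Agent.P354D (sgn cpt)
open Vale.Agent.P354RG (Y3 IsG kd)
open Vale.Agent.P354XE
open Vale.Agent.P354XU (L4 Jt Rol St0 IndAt)
open Vale.Agent.P354XM (sh)
open Vale.Agent.P354YJ (Js IsH)
open Vale.Agent.P354YR (gK XK XI DE ci)

/-! ### The constants and the output of EXT -/

/-- The constants of EXT. -/
structure Pm where
  (M a r1 θ R s δ ε : ℝ)
  N : ℕ

/-- Q holds for small θ, large R, large N, small ε, in this order. -/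
def Evt (M a r1 s δ : ℝ) (Q : Pm → Prop) : Prop :=
  ∃ θ0 > 0, ∀ θ ∈ Ioo 0 θ0, ∃ R0, ∀ R ≥ R0, ∃ N0, ∀ N ≥ N0, ∃ ε0 > 0, ∀ ε ∈ Ioc 0 ε0,
    Q ⟨M, a, r1, θ, R, s, δ, ε, N⟩

/-- The standing assumptions, r1 < r0 < r2 are radii between the horizons. -/
structure Bs (M a r1 r0 r2 s δ : ℝ) : Prop where
  ne : a ≠ 0
  lt : |a| < M
  r1 : rm M a < r1 ∧ r1 < r0 ∧ r0 < r2 ∧ r2 < rp M a
  hs : 1 < s
  hδ : 0 < δ

/-- A development in the Kruskal chart. -/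
structure Tg where
  D : Set R4
  g : Tw
  Xf : R4 → R4
  Y : Bool → R4 → R4
  (q q' : Bool → Par)
  β : Bool → Fin 3 → R4 → ℝ

structure Tg.Is (P : Pm) (d : Dat) (T : Tg) : Prop where
  lor : Lor T.g T.D T.Xf
  sub : D0 P.M P.a P.r1 ⊆ T.D
  ind : Ind T.g T.Xf (pt 0) d
  box : ∀ p ∈ Bx P.M P.a P.r1 P.θ, 0 < (T.Xf p).1 ∧ ∀ v ≠ 0, v.1 = 0 → 0 < T.g p v v
  ori : ∀ σ, ∀ p ∈ En P.M P.a P.r1 P.θ,
    fderiv ℝ (ch P.M P.a σ) p (T.Y σ p) = T.Xf (ch P.M P.a σ p)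
  ends : ∀ σ, IsEnd P.M P.a P.r1 P.θ P.R P.s P.δ P.ε P.N (pb (ch P.M P.a σ) T.g) (T.Y σ) (T.q σ)
    (T.q' σ) (T.β σ)
  mid : Mid P.M P.a P.r1 P.θ P.ε P.N T.g (gK P.M P.a)

/-- The inverse of Par.lin, the chart of an end adapted to q, and its inverse. -/
def inv (q : Par) (p : R4) : R4 := pt (p.1 / q.l) (WithLp.toLp 2 (q.Rᵀ *ᵥ (xs p).ofLp))
def cq (M a : ℝ) (σ : Bool) (q : Par) : R4 → R4 := ch M a σ ∘ q.lin
def iq (M a : ℝ) (σ : Bool) (q : Par) : R4 → R4 := inv q ∘ ci M a σ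

/-- The parameters of the interior Kerr family; the base radius is M. -/
def pp (M : ℝ) (q : Par) : P3 := (q.M, q.a, M)

/-- On the part r ≤ 5 M of K, g is close to Kerr. -/
structure Cls (P : Pm) (K : Set R4) (g : Tw) (Xf : R4 → R4) (q : Bool → Par) : Prop where
  par : ∀ σ, (q σ).Near P.M P.a P.ε
  near : ∀ σ, ∀ p ∈ En P.M P.a P.r1 P.θ, rd p ≤ 5 * P.M → ch P.M P.a σ p ∈ K →
    Bd P.N (pb (ch P.M P.a σ) g - gin P.M P.a) p (2 * P.ε) ∧ g (ch P.M P.a σ p)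
      (fderiv ℝ (ch P.M P.a σ) p (XI P.M P.a p)) (Xf (ch P.M P.a σ p)) < 0
  mid : ∀ p ∈ K, p ∈ D0 P.M P.a P.r1 → p.1 + |kx P.M P.a p| ≤ 2 * P.θ * mf P.M P.a (kr P.M P.a p) →
    Bd P.N (g - gK P.M P.a) p (2 * P.ε) ∧ g p (XK P.M P.a p) (Xf p) < 0
  conv : ∀ σ p, (q σ).lin p ∈ En P.M P.a P.r1 P.θ → rd p ≤ 5 * P.M → cq P.M P.a σ (q σ) p ∈ K →
    Bd P.N (pb (cq P.M P.a σ (q σ)) g - gin (q σ).M (q σ).a) p (2 * P.ε * (1 + |p.1|) ^ (-P.s))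

/-! ### Lenses, curves, almost isometries, rollings -/

def KV (W : Set R4) (τ : R4 → ℝ) (V : ℝ) : Set R4 := {p ∈ W | 0 ≤ p.1 ∧ τ p ≤ V}

/-- A compact domain of dependence in the future of the slice T = 0. -/
structure Lens (W : Set R4) (g : Tw) (Xf : R4 → R4) (τ : R4 → ℝ) (V : ℝ) (d : Dat) : Prop where
  lor : Lor g W Xf
  ne : ∀ p ∈ W, xs p ≠ 0
  pd : PDy d
  cpt : IsCompact (KV W τ V)
  tm : ∀ p ∈ KV W τ V, Tm g Xf τ p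
  sig : ∀ y, pt 0 y ∈ KV W τ V → Tm g Xf (fun p => p.1) (pt 0 y) ∧
    ∀ᶠ z in 𝓝 y, IndAt g Xf (pt 0) d z

/-- A reference solution. -/
structure Ref (P : Pm) (r0 : ℝ) (W : Set R4) (g : Tw) (Xf : R4 → R4) (τ : R4 → ℝ) (V : ℝ)
    (d : Dat) (q : Bool → Par) : Prop where
  lens : Lens W g Xf τ V d
  cls : Cls P (KV W τ V) g Xf q
  sub : ∀ p ∈ KV W τ V, p ∈ D0 P.M P.a P.r1 ∧ r0 ≤ kr P.M P.a p

/-- γ is a future timelike curve in S from x to x'. -/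
def Cu (g : Tw) (Xf : R4 → R4) (S : Set R4) (x x' : R4) (γ : ℝ → R4) : Prop :=
  γ 0 = x ∧ γ 1 = x' ∧ ∀ s ∈ Icc (0 : ℝ) 1, γ s ∈ S ∧ DifferentiableAt ℝ γ s ∧
    Ft g Xf (γ s) (deriv γ s)

/-- A chain of such curves. -/
def Cv (g : Tw) (Xf : R4 → R4) (S : Set R4) : R4 → R4 → Prop :=
  Relation.ReflTransGen fun x x' => ∃ γ, Cu g Xf S x x' γ

/-- A curve in S from x to x' which is future timelike with the margin c and has speed ≤ L. -/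
def Pc (g : Tw) (Xf : R4 → R4) (c L : ℝ) (S : Set R4) (x x' : R4) : Prop :=
  ∃ γ, Cu g Xf S x x' γ ∧ ∀ s ∈ Icc (0 : ℝ) 1, ‖deriv γ s‖ ≤ L ∧
    g (γ s) (deriv γ s) (deriv γ s) ≤ -c * ‖deriv γ s‖ ^ 2

/-- A chain of k such curves. -/
def Pk (g : Tw) (Xf : R4 → R4) (c L : ℝ) (S : Set R4) (k : ℕ) (x x' : R4) : Prop :=
  ∃ z : ℕ → R4, z 0 = x ∧ z k = x' ∧ ∀ i < k, Pc g Xf c L S (z i) (z (i + 1))

/-- The jets of order m of the difference of the data at y are at most η. -/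
def DJ (m : ℕ) (d' d : Dat) (y : X) (η : ℝ) : Prop :=
  ∀ i j, Jt m (fun z => d'.h z i j - d.h z i j) y η ∧ Jt m (fun z => d'.K z i j - d.K z i j) y η

/-- b is an almost isometry on K which is the identity on the slice T = 0. -/
structure Emb (K : Set R4) (g : Tw) (Xf : R4 → R4) (g' : Tw) (X' : R4 → R4) (n : ℕ) (η : ℝ)
    (b : R4 → R4) : Prop where
  sm : ∃ O, IsOpen O ∧ K ⊆ O ∧ ContDiffOn ℝ ∞ b O
  id : ∀ y, pt 0 y ∈ K → ∀ᶠ z in 𝓝 y, b (pt 0 z) = pt 0 z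
  cl : ∀ p ∈ K, Bd n (pb b g' - g) p η
  inj : ∀ p ∈ K, Function.Injective (fderiv ℝ b p)
  fut : ∀ p ∈ K, ∀ w, Ft g Xf p w → g' (b p) (fderiv ℝ b p w) (fderiv ℝ b p w) < 0 →
    Ft g' X' (b p) (fderiv ℝ b p w)
  pos : ∀ p ∈ K, 0 < p.1 → 0 < (b p).1

/-- Uniform bounds for g at p, with the time function τ. -/
structure UB (N : ℕ) (B c : ℝ) (g : Tw) (Xf : R4 → R4) (τ : R4 → ℝ) (p : R4) : Prop where
  bd : Bd N g p B
  nd : ∀ v, ∃ w, ‖w‖ ≤ 1 ∧ c * ‖v‖ ≤ g p v w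
  sm : ContDiffAt ℝ 2 τ p ∧ Jt 2 τ p B
  cone : ∀ w, g p w w ≤ 0 → g p w (Xf p) ≤ 0 → c * ‖w‖ ≤ fderiv ℝ τ p w

/-- The rolling of the curves with the velocities c from the slice T = 0. -/
structure Ro (g : Tw) (D : Set R4) (Xf : R4 → R4) (d : Dat) (c : R4 → R4) (Ω : Set R4)
    (b : R4 → R4) (E : R4 → L4) : Prop where
  rol : Rol g D Ω c 0 b E
  star : P354XU.Star Ω
  st : St0 g Xf (pt 0) d {y | pt 0 y ∈ Ω} b E

/-- c is future timelike at p. -/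
def Tl (c : R4 → R4) (p : R4) : Prop := mink (c p) (c p) < 0 ∧ 0 < (c p).1

/-- The rolling Φ is a chart of a neighbourhood of the lens, with the inverse Ψ. -/
structure Str (W : Set R4) (g : Tw) (Xf : R4 → R4) (τ : R4 → ℝ) (V : ℝ) (d : Dat) (c : R4 → R4)
    (Ω : Set R4) (Φ Ψ : R4 → R4) (E : R4 → L4) : Prop where
  ro : Ro g W Xf d c Ω Φ E
  left : ∀ p ∈ Ω, Ψ (Φ p) = p
  loc : ∀ p ∈ Ω, Function.Injective (fderiv ℝ Φ p)
  opn : IsOpen (Φ '' Ω)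
  sm : ContDiffOn ℝ ∞ Ψ (Φ '' Ω)
  tl : ∀ p ∈ Ω, Tl c p ∧ Ft g Xf (Φ p) (E p (c p))
  sgn : ∀ p ∈ Ω, (0 ≤ (Φ p).1 ↔ 0 ≤ p.1) ∧ (0 < (Φ p).1 ↔ 0 < p.1)
  onto : KV W τ V ⊆ Φ '' Ω
  past : ∀ V' ≤ V, ∀ p ∈ Ω, Φ p ∈ KV W τ V' → ∀ s ∈ Icc 0 p.1, Φ (s, p.2) ∈ KV W τ V'

/-- A compact union of vertical segments which start on the slice t = 0. -/
def Seg (A : Set R4) : Prop := IsCompact A ∧ ∀ p ∈ A, 0 ≤ p.1 ∧ ∀ s ∈ Icc 0 p.1, (s, p.2) ∈ A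

/-! ### The location of almost isometries -/

/-- b is close to the identity on A. -/
def LocC (n : ℕ) (e : ℝ) (A K : Set R4) (b : R4 → R4) : Prop :=
  ∀ p ∈ A, p ∈ K → Jt n (b - id) p e

/-- In the charts adapted to q and q', b is close to one shift on every box of height L. -/
def LocD (P : Pm) (r0 t1 L : ℝ) (n : ℕ) (e : ℝ) (K : Set R4) (q q' : Bool → Par) (b : R4 → R4) :
    Prop :=
  ∀ σ, ∀ t0 ≥ t1, ∃ c φ, ∀ p : R4, |p.1 - t0| ≤ L → r0 ≤ rd p → rd p ≤ 4 * P.M →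
    cq P.M P.a σ (q σ) p ∈ K → |(q' σ).M - (q σ).M| ≤ e * (1 + t0) ^ (-P.s) ∧
      |(q' σ).a - (q σ).a| ≤ e * (1 + t0) ^ (-P.s) ∧ b (cq P.M P.a σ (q σ) p) ∈ DE P.M P.a σ ∧
      Jt n (iq P.M P.a σ (q' σ) ∘ b ∘ cq P.M P.a σ (q σ) - sh c φ) p (e * (1 + t0) ^ (-P.s))

/-! ### The slices -/

/-- The interior family, the time T of the slices and the size X0 of the middle part. -/
structure Jd where
  (M a ε0 δ δ1 T X0 : ℝ)
  C : ℕ → ℝ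
  (G H : ℕ → Y3 → ℝ)
  K : P3 → ℝ → Bool → R4 → Ix → ℝ

def Jd.k (j : Jd) : ℝ := P354R.kap j.M j.a
def Jd.p0 (j : Jd) : P3 := (j.M, j.a, j.M)
def Jd.kd (j : Jd) (p : P3) : Dat := P354RG.kd j.k j.G p j.T
def Jd.Js (j : Jd) (σ : Bool) (p : P3) : X → R4 := P354YJ.Js j.k j.H σ p j.T
def Jd.J0 (j : Jd) : X → R4 := kap j.M j.a ∘ j.Js true j.p0

structure Jd.Is (j : Jd) : Prop where
  hG : IsG j.p0 j.k j.ε0 j.δ j.G
  hH : IsH j.p0 j.k j.ε0 j.δ j.G j.H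
  hK : IsKF j.p0 j.k j.ε0 j.δ1 j.C j.K (P354RG.kd j.k j.G)
  hT : 0 ≤ j.T

/-- The slices lie in r2 < r. -/
def Jd.Rad (j : Jd) (r2 : ℝ) : Prop := ∀ y ≠ 0, r2 < rd (j.Js true j.p0 y)

/-- The range, the dilation, and the coordinate along the end σ. -/
def lg (σ : Bool) (y : X) : ℝ := sgn σ * Real.log ‖y‖
def Rg (Z : Bool → ℝ) : Set X := {y | y ≠ 0 ∧ ∀ σ, lg σ y < Z σ}
def Rc (Z : Bool → ℝ) : Set X := {y | y ≠ 0 ∧ ∀ σ, lg σ y ≤ Z σ}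
def dl (σ : Bool) (x : ℝ) (y : X) : X := Real.exp (sgn σ * x) • y

/-- On the part x + I of O, the slice J is close to a shift of the Kerr slice. -/
def LocAt (j : Jd) (n : ℕ) (J : X → R4) (q : Par) (σ : Bool) (O : Set X) (I : Set ℝ)
    (x c φ e : ℝ) : Prop :=
  ∀ y ≠ 0, lg σ y ∈ I → dl σ x y ∈ O → J (dl σ x y) ∈ DE j.M j.a σ ∧
    Jt n (fun z => iq j.M j.a σ q (J (dl σ x z)) - sh c φ (j.Js σ (pp j.M q) z)) y e

/-- Admissible slices over O. -/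
structure Adm (j : Jd) (s : ℝ) (n : ℕ) (e : ℝ) (O : Set X) (J : X → R4) (q : Bool → Par) :
    Prop where
  sm : ContDiffOn ℝ ∞ J O
  mid : ∀ y ∈ O, |Real.log ‖y‖| ≤ j.X0 + 1 → Jt n (J - j.J0) y e
  box : ∀ σ, ∀ x ≥ j.X0, ∃ c φ, LocAt j n J (q σ) σ O (Icc (-1) 1) x c φ (e * (1 + x) ^ (-s))

/-- The location of the last part of the slice. -/
def Last (j : Jd) (s : ℝ) (n : ℕ) (e : ℝ) (Z : Bool → ℝ) (J : X → R4) (q : Bool → Par) : Prop :=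
  ∀ σ, ∃ c φ, LocAt j n J (q σ) σ (Rg Z) (Icc (-4) 0) (Z σ) c φ (e * (1 + Z σ) ^ (-s))

/-- Beyond Z the slice is a shift of the Kerr slice. -/
def Exact (j : Jd) (Z : Bool → ℝ) (J : X → R4) (q : Bool → Par) : Prop :=
  ∀ σ, ∃ c φ, ∀ y ≠ 0, Z σ ≤ lg σ y →
    J y = cq j.M j.a σ (q σ) (sh c φ (j.Js σ (pp j.M (q σ)) y))

/-- Data near the family. -/
def Nr (j : Jd) (s η : ℝ) (p q : P3) (d : Dat) : Prop :=
  PDy d ∧ pm s 11 d (mix (j.kd p) (j.kd q)) < ENNReal.ofReal η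

/-- A kick in a thin window on the side b. -/
structure Kk (b : Bool) (Λ R w A : ℝ) (u u' : X3 → Ix → ℝ) : Prop where
  zero : ∀ z : X3, sgn b * z.1 ≤ R - 2 * w → u' z = u z
  bound : ∀ i (α : List (Fin 3)), α.length ≤ 4 → (0 : Fin 3) ∉ α → ∀ z : X3,
    sgn b * z.1 ≤ R + 2 * w → r2 z ≤ 16 → |pdl α (fun y => u' y i - u y i) z| ≤ Λ * A
  low : ENNReal.ofReal (w / 3) ≤ volume {x ∈ Ioo R (R + w) | ∀ y : ℝ × ℝ,
    y.1 ^ 2 + y.2 ^ 2 ≤ 2 → A ≤ |u' (sgn b * x, y) (cpt b) - u (sgn b * x, y) (cpt b)|}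

/-- The range which ends at x on the side b and at x' on the other side. -/
def sd (b : Bool) (x x' : ℝ) (σ : Bool) : ℝ := if σ = b then x else x'

end Vale.Agent.P354YM
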