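import Vale.Agent.P354YM.G0
import Vale.Agent.P354XE.Low

/-!
The context of the game, and the construction of a state from a reference solution.
-/

open scoped ContDiff
open Set Filter Topology

noncomputable section

namespace Vale.Agent.P354YM

open Vale.Agent.P354n (R4)
open Vale.Agent.P354I (X Dat P3 Con Good)
open Vale.Agent.P354J (PDy Ud)
open Vale.Agent.P354XS (DA BA qm)
open Vale.Agent.P354XE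
open Vale.Agent.P354XU (L4 Jt IndAt)
open Metric (ball)

/-- The constants of the game. -/
structure Cx where
  j : Jd
  P : Pm
  (rb r2 w η εp e3 e1 eS e t1 L Λ η0 : ℝ)
  m0 : ℕ
  A : Set R4
  Big : ℕ → Dat → Prop
  sn : ℕ → Bool × Bool
  ext : Dat → Tg

/-- Short names. -/
abbrev Cx.D (C : Cx) : Set R4 := D0 C.j.M C.j.a C.P.r1
abbrev Cx.r (C : Cx) : R4 → ℝ := kr C.j.M C.j.a
abbrev Cx.Nq (C : Cx) (q : Bool → Par) : Prop := ∀ σ, (q σ).Near C.j.M C.j.a C.P.ε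
abbrev Cx.Ad (C : Cx) (O : Set X) (J : X → R4) (q : Bool → Par) : Prop :=
  Adm C.j C.P.s 13 C.e3 O J q
abbrev Cx.La (C : Cx) (Z : Bool → ℝ) (J : X → R4) (q : Bool → Par) : Prop :=
  Last C.j C.P.s 13 C.e1 Z J q
abbrev Cx.Bo (C : Cx) (e : ℝ) (O : Set X) (J : X → R4) (q : Bool → Par) (σ : Bool) (x : ℝ) :
    Prop := ∃ c φ, LocAt C.j 13 J (q σ) σ O (Icc (-1) 1) x c φ (e * (1 + x) ^ (-C.P.s))
abbrev Cx.N (C : Cx) (η : ℝ) (q : Bool → Par) (d : Dat) : Prop :=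
  Nr C.j C.P.s η (pp C.j.M (q true)) (pp C.j.M (q false)) d
abbrev Cx.Z0 (C : Cx) : Bool → ℝ := fun _ => C.j.X0 + 5

/-- The output of TRANS. -/
structure Cx.Tr (C : Cx) (K : Set R4) (g : Tw) (Xf : R4 → R4) (q : Bool → Par) (η : ℝ) (T : Tg)
    (b : R4 → R4) : Prop where
  emb : Emb K g Xf T.g T.Xf 13 η b
  maps : MapsTo b K C.D
  inj : InjOn b K
  lc : LocC 13 C.e C.A K b
  ld : LocD C.P C.rb C.t1 C.L 13 C.e K q T.q b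

/-- The facts which are used in the game. -/
structure Cx.Ok (C : Cx) : Prop where
  w0 : C.w ∈ Ioc 0 1
  x0 : 1 ≤ C.j.X0
  η0 : 0 < C.η0 ∧ 0 < C.η ∧ C.eS ≤ C.e3
  ru : RU2
  str : STR
  dlip : DLIP
  hext : ∀ d ∈ BA C.j.M C.j.a C.m0 C.η0, (C.ext d.1).Is C.P d.1
  sub : ∀ d (T : Tg), T.Is C.P d → C.D ⊆ T.D ∧ C.Nq T.q
  bl : ∀ q : Par, q.Near C.j.M C.j.a C.P.ε → pp C.j.M q ∈ ball C.j.p0 C.εp
  j0 : ContDiffOn ℝ ∞ C.j.J0 {0}ᶜ ∧ ∀ y ≠ 0, C.j.J0 y ∈ C.D ∧ C.r2 < C.r (C.j.J0 y)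
  ref : ∀ d (T : Tg), PDy d → T.Is C.P d → ∀ A, IsCompact A → (∀ p ∈ A, p ∈ C.D ∧ C.r2 ≤ C.r p) →
    ∃ W τ V, Ref (C.P.n 18) C.rb W T.g T.Xf τ V d T.q ∧ A ⊆ KV W τ (V - 1)
  tr : ∀ W g Xf τ V d q c Ω Φ Ψ E, Ref (C.P.n 18) C.rb W g Xf τ V d q → Str W g Xf τ V d c Ω Φ Ψ E →
    ∀ η > 0, ∃ m, ∃ η' > 0, ∀ d' (T : Tg), PDy d' → T.Is C.P d' →
      (∀ y, pt 0 y ∈ KV W τ V → DJ m d' d y η') → ∃ b Ω' b' E',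
        C.Tr (KV W τ (V - 1)) g Xf q η T b ∧ Ro T.g T.D T.Xf d' c Ω' b' E' ∧
        ∀ p ∈ Ω, Φ p ∈ KV W τ (V - 1) → p ∈ Ω' ∧ b' =ᶠ[𝓝 p] b ∘ Φ
  mono : ∀ d (T : Tg), T.Is C.P d → ∀ x x', Cv T.g T.Xf C.D x x' → C.r2 < C.r x' → C.r2 < C.r x
  pos : ∀ O J q, C.Nq q → Ray O → C.Ad O J q → ∀ y ∈ O, J y ∈ C.D ∧ C.r2 < C.r (J y)
  sw : ∀ Z J q, (∀ σ, C.j.X0 + 5 ≤ Z σ) → C.Nq q → ContDiffOn ℝ ∞ J (Rg Z) → C.La Z J q →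
    ∃ J', EqOn J' J (Rg fun σ => Z σ - C.w / 16) ∧ Exact C.j Z J' q ∧ ContDiffOn ℝ ∞ J' {0}ᶜ ∧
      ∀ σ, ∀ x ≥ Z σ - 3, C.Bo C.eS {0}ᶜ J' q σ x
  l0 : ∀ K g Xf q η T b, C.Nq q → C.Nq T.q → C.Tr K g Xf q η T b → MapsTo C.j.J0 (Rg C.Z0) K →
    C.Ad (Rg C.Z0) (b ∘ C.j.J0) T.q ∧ C.La C.Z0 (b ∘ C.j.J0) T.q
  l1 : ∀ K g Xf q η T b J Z', C.Nq q → C.Nq T.q → C.Tr K g Xf q η T b → C.Ad {0}ᶜ J q →
    MapsTo J (Rg Z') K → (∀ σ, ∀ x ≥ C.j.X0, C.Bo C.eS {0}ᶜ J q σ x →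
      C.Bo C.e3 (Rg Z') (b ∘ J) T.q σ x) ∧
    ∀ Z, Exact C.j Z J q → (∀ σ, C.j.X0 ≤ Z σ ∧ Z σ + 5 ≤ Z' σ) → C.La Z' (b ∘ J) T.q
  dat : ∀ d (T : Tg) J, T.Is C.P d → C.Ad {0}ᶜ J T.q →
    ∃ d', Con d' ∧ Ind T.g T.Xf J d' ∧ C.N (C.η / 2) T.q d'
  good : ∀ d (T : Tg) J d', PDy d → T.Is C.P d → C.Ad {0}ᶜ J T.q → PDy d' → Ind T.g T.Xf J d' →
    GGp d' → Good d
  i1 : ∀ q d, C.Nq q → C.N C.η q d → Con d → (∀ n, C.Big n d) → GGp d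
  i2 : ∀ n, ∃ R0, ∀ R ≥ R0, ∃ x1, ∀ A ≥ Real.exp (-(C.j.k / 64) * R), ∀ q d1 d2, C.Nq q →
    C.N C.η q d1 → C.N C.η q d2 →
    Kk (C.sn n).2 C.Λ R C.w A (Ud d1 (C.sn n).1) (Ud d2 (C.sn n).1) → ∃ ζ > 0, ∃ d0,
      (d0 = d1 ∨ d0 = d2) ∧ ∀ q' d, C.Nq q' → C.N C.η q' d →
        (∀ y ∈ Rg (sd (C.sn n).2 (R + 2 * C.w) x1), DJ 11 d d0 y ζ) → C.Big n d
  kck : ∀ (d : DA C.j.M C.j.a) (T : Tg) J d1 Z, T.Is C.P d.1 → C.Ad {0}ᶜ J T.q →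
    Exact C.j Z J T.q → Con d1 → Ind T.g T.Xf J d1 → C.N (C.η / 2) T.q d1 →
    ∀ A, IsCompact A → (∀ x ∈ A, x ∈ C.D ∧ C.r2 ≤ C.r x) →
    (∀ x ∈ A, ∃ y ∈ Rc Z, Cv T.g T.Xf A x (J y)) → ∀ (m : ℕ), ∀ η0 > 0, ∀ σ b, ∃ R1, ∀ R ≥ R1, ∀ x2, ∃ A0 ≥ Real.exp (-(C.j.k / 64) * R),
      ∃ d' : DA C.j.M C.j.a, qm m d'.1 d.1 < ENNReal.ofReal η0 ∧ ∃ W g Xf τ V d2,
        Ref (C.P.n 18) C.rb W g Xf τ V d'.1 T.q ∧ A ⊆ KV W τ (V - 1) ∧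
        MapsTo J (Rc (sd b (R + 9 / 4 * C.w) x2)) (KV W τ (V - 1)) ∧
        (∀ x ∈ A, (∀ᶠ z in 𝓝 x, g z = T.g z ∧ Xf z = T.Xf z) ∧
          (x.1 = 0 → d'.1.h (xs x) = d.1.h (xs x))) ∧
        C.N C.η T.q d2 ∧ Kk b C.Λ R C.w A0 (Ud d1 σ) (Ud d2 σ) ∧
        ∀ y ∈ Rg (sd b (R + 9 / 4 * C.w) x2), IndAt g Xf J d2 y

/-- The union of the vertical segments below a set. -/
def below (S : Set R4) : Set R4 := (fun x : ℝ × R4 => (x.1 * x.2.1, x.2.2)) '' (Icc 0 1 ×ˢ S)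

theorem mem_below {S : Set R4} {p : R4} (h : ∀ x ∈ S, 0 ≤ x.1) :
    p ∈ below S ↔ ∃ x ∈ S, p.2 = x.2 ∧ p.1 ∈ Icc 0 x.1 := by
  constructor
  · rintro ⟨⟨u, x⟩, ⟨hu, hx⟩, rfl⟩
    exact ⟨x, hx, rfl, mul_nonneg hu.1 (h x hx), mul_le_of_le_one_left (h x hx) hu.2⟩
  · rintro ⟨x, hx, e, k⟩
    refine ⟨⟨p.1 / x.1, x⟩, ⟨⟨div_nonneg k.1 (h x hx), div_le_one_of_le₀ k.2 (h x hx)⟩, hx⟩,
      Prod.ext ?_ e.symm⟩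
    rcases (h x hx).eq_or_lt with z | z
    · simp only [← z, mul_zero]
      linarith [k.1, k.2]
    · exact div_mul_cancel₀ _ z.ne'

theorem seg_below {S : Set R4} (hS : IsCompact S) (h : ∀ x ∈ S, 0 ≤ x.1) : Seg (below S) := by
  refine ⟨(isCompact_Icc.prod hS).image (by fun_prop), fun p hp => ?_⟩
  obtain ⟨x, hx, e, k⟩ := (mem_below h).1 hp
  exact ⟨k.1, fun s hs => (mem_below h).2 ⟨x, hx, e, hs.1, hs.2.trans k.2⟩⟩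

/-- The lines of a rolling are future timelike curves. -/
theorem Ro.cv (hR : RU2) {g : Tw} {D S Ω : Set R4} {Xf c b : R4 → R4} {d : Dat} {E : R4 → L4}
    (hl : Lor g D Xf) (hd : PDy d) (h : Ro g D Xf d c Ω b E) {p : R4} {t : ℝ} (ht : p.1 ≤ t)
    (h0 : xs p ≠ 0) (k : ∀ s ∈ Icc p.1 t, (s, p.2) ∈ Ω ∧ Tl c (s, p.2) ∧ b (s, p.2) ∈ S) :
    Cv g Xf S (b p) (b (t, p.2)) := by
  rcases ht.eq_or_lt with e | e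
  · rw [← e]
    exact Relation.ReflTransGen.refl
  refine Relation.ReflTransGen.single ⟨fun u => b (p.1 + u * (t - p.1), p.2), by simp, by simp,
    fun u hu => ?_⟩
  have m : p.1 + u * (t - p.1) ∈ Icc p.1 t := ⟨by nlinarith [hu.1], by nlinarith [hu.2]⟩
  obtain ⟨k1, k2, k3⟩ := k _ m
  have d1 : HasDerivAt (fun u : ℝ => ((p.1 + u * (t - p.1), p.2) : R4)) ((t - p.1) • eT) u := by
    simpa [eT] using (((hasDerivAt_id u).mul_const (t - p.1)).const_add p.1).prodMk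
      (hasDerivAt_const u p.2)
  have d2 := (((h.rol.sb.contDiffAt (h.rol.isOpen.mem_nhds k1)).differentiableAt
    (by simp)).hasFDerivAt.comp_hasDerivAt u d1)
  have f := (hR _ _ _ _ _ _ _ _ hl hd h _ k1 h0).1 k2
  have hm := h.rol.maps k1
  have l := hl.met.lin _ hm
  have sy := hl.met.symm _ hm
  refine ⟨k3, d2.differentiableAt, ?_⟩
  rw [show deriv (fun u => b (p.1 + u * (t - p.1), p.2)) u = _ from d2.deriv, map_smul,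
    h.rol.db _ k1, Ft, (l _).map_smul, sy, (l _).map_smul, sy ((t - p.1) • _), (l _).map_smul,
    sy (Xf _)]
  have := sub_pos.2 e
  exact ⟨mul_neg_of_pos_of_neg this (mul_neg_of_pos_of_neg this f.1),
    mul_neg_of_pos_of_neg this f.2⟩

/-- What a rolling does on the set A and on the slice. -/
structure Cx.Rl (C : Cx) (T : Tg) (d : Dat) (c : R4 → R4) (i : X → R4) (Z : Bool → ℝ)
    (A Ω : Set R4) (b : R4 → R4) (E : R4 → L4) : Prop where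
  ro : Ro T.g T.D T.Xf d c Ω b E
  sub : A ⊆ Ω
  mem : MapsTo i (Rg Z) Ω
  inj : InjOn b A
  pt : ∀ p ∈ A, Function.Injective (fderiv ℝ b p) ∧ b p ∈ C.D ∧ C.r2 ≤ C.r (b p)

/-- What is known about the rolling chart of a state. -/
structure Cx.Sg (C : Cx) (c : R4 → R4) (i : X → R4) (Z : Bool → ℝ) (A : Set R4) : Prop where
  seg : Seg A
  tl : ∀ p ∈ A, Tl c p ∧ xs p ≠ 0
  maps : MapsTo i (Rg fun σ => Z σ - C.w / 8) A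
  top : ∀ p ∈ A, ∃ y ∈ Rc fun σ => Z σ - C.w / 8, i y ∈ A ∧ p.2 = (i y).2 ∧ p.1 ≤ (i y).1

theorem Cx.Ok.core {C : Cx} (h : C.Ok) {W Ω : Set R4} {g : Tw} {Xf c Φ Ψ : R4 → R4} {τ : R4 → ℝ}
    {V η : ℝ} {d : Dat} {q : Bool → Par} {E : R4 → L4} {J : X → R4} {Z : Bool → ℝ}
    (hr : Ref (C.P.n 18) C.rb W g Xf τ V d q) (hs : Str W g Xf τ V d c Ω Φ Ψ E)
    (hJ : ContDiffOn ℝ ∞ J {0}ᶜ) (hK : MapsTo J (Rc Z) (KV W τ (V - 1))) (hZ : ∀ σ, 0 < Z σ)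
    (hη : 0 < η) : ∃ A m, ∃ η' > 0, C.Sg c (Ψ ∘ J) Z A ∧ ∀ d' (T : Tg), PDy d' → T.Is C.P d' →
      qm m d' d ≤ ENNReal.ofReal η' → ∃ b Ω' b' E', C.Tr (KV W τ (V - 1)) g Xf q η T b ∧
        EqOn (b' ∘ Ψ ∘ J) (b ∘ J) (Rg Z) ∧ Ro T.g T.D T.Xf d' c Ω' b' E' ∧
        MapsTo (Ψ ∘ J) (Rg Z) Ω' ∧ (C.Ad (Rg Z) (b ∘ J) T.q → C.Rl T d' c (Ψ ∘ J) Z A Ω' b' E') := by
  have w0 := h.w0.1
  have kv := kv_mono (W := W) (τ := τ) (show V - 1 ≤ V by linarith)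
  have hi : ∀ y ∈ Rc Z, Ψ (J y) ∈ Ω ∧ Φ (Ψ (J y)) = J y := fun y hy => by
    obtain ⟨p, hp, e⟩ := hs.onto (kv (hK hy))
    rw [← e, hs.left p hp]
    exact ⟨hp, rfl⟩
  have s1 : (Rc fun σ => Z σ - C.w / 8) ⊆ Rg Z := rc_rg fun σ => by linarith
  have s2 := s1.trans rg_rc
  set S := (Ψ ∘ J) '' Rc fun σ => Z σ - C.w / 8 with hS
  have c1 : IsCompact S := (rc_cpt _).image_of_continuousOn (hs.sm.continuousOn.comp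
    (hJ.continuousOn.mono rc_ne) fun y hy => hs.onto (kv (hK (s2 hy))))
  have c2 : ∀ x ∈ S, 0 ≤ x.1 := by
    rintro _ ⟨y, hy, rfl⟩
    exact (hs.sgn _ (hi y (s2 hy)).1).1.1 ((hi y (s2 hy)).2.symm ▸ (hK (s2 hy)).2.1)
  have c3 : ∀ p ∈ below S, ∃ y ∈ Rg Z, p.2 = (Ψ (J y)).2 ∧ p.1 ≤ (Ψ (J y)).1 ∧
      Ψ (J y) ∈ S ∧ p ∈ Ω ∧ Φ p ∈ KV W τ (V - 1) := fun p hp => by
    obtain ⟨_, ⟨y, hy, rfl⟩, e, k⟩ := (mem_below c2).1 hp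
    obtain ⟨k1, k2⟩ := hi y (s2 hy)
    have e' : p = (p.1, (Ψ (J y)).2) := Prod.ext rfl e
    refine ⟨y, s1 hy, e, k.2, ⟨y, hy, rfl⟩, e' ▸ hs.ro.star _ k1 _ (Icc_subset_uIcc k), ?_⟩
    exact e' ▸ hs.past _ (by linarith) _ k1 (k2.symm ▸ hK (s2 hy)) _ k
  have c4 : ∀ p ∈ Ω, xs p ≠ 0 := fun p hp => by
    have k : pt 0 (xs p) ∈ Ω := hs.ro.star p hp 0 left_mem_uIcc
    have := hr.lens.ne _ (hs.ro.rol.maps k)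
    rwa [(hs.ro.st _ k).1, xs_pt] at this
  obtain ⟨m, η1, e1, ht⟩ := h.tr _ _ _ _ _ _ _ _ _ _ _ _ hr hs η hη
  obtain ⟨η', e2, hq⟩ := dj_of_qm (hr.lens.cpt.image xs_cont)
    (by rintro _ ⟨p, hp, rfl⟩; exact hr.lens.ne p hp.1) m e1
  have sg := seg_below c1 c2
  refine ⟨below S, m, η', e2, ⟨sg, fun p hp => ?_, fun y hy => ?_, fun p hp => ?_⟩,
    fun d' T pd hT hd => ?_⟩
  · obtain ⟨-, -, -, -, -, k, -⟩ := c3 p hp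
    exact ⟨(hs.tl p k).1, c4 p k⟩
  · have k : Ψ (J y) ∈ S := ⟨y, rg_rc hy, rfl⟩
    exact (mem_below c2).2 ⟨_, k, rfl, c2 _ k, le_rfl⟩
  · obtain ⟨_, ⟨y, hy, rfl⟩, e, k⟩ := (mem_below c2).1 hp
    have k' : Ψ (J y) ∈ S := ⟨y, hy, rfl⟩
    exact ⟨y, hy, (mem_below c2).2 ⟨_, k', rfl, c2 _ k', le_rfl⟩, e, k.2⟩
  obtain ⟨b, Ω', b', E', t1, t2, t3⟩ :=
    ht d' T pd hT fun y hy => hq _ _ hd y ⟨_, hy, xs_pt 0 y⟩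
  have t4 : ∀ y ∈ Rg Z, Ψ (J y) ∈ Ω' ∧ b' (Ψ (J y)) = b (J y) := fun y hy => by
    obtain ⟨k1, k2⟩ := hi y (rg_rc hy)
    obtain ⟨k3, k4⟩ := t3 _ k1 (k2.symm ▸ hK (rg_rc hy))
    exact ⟨k3, by rw [k4.eq_of_nhds, Function.comp_apply, k2]⟩
  have t5 : ∀ p ∈ below S, p ∈ Ω' ∧ b' p = b (Φ p) ∧ b' p ∈ C.D := fun p hp => by
    obtain ⟨-, -, -, -, -, k1, k2⟩ := c3 p hp
    obtain ⟨k3, k4⟩ := t3 _ k1 k2
    exact ⟨k3, k4.eq_of_nhds, k4.eq_of_nhds ▸ t1.maps k2⟩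
  refine ⟨b, Ω', b', E', t1, fun y hy => (t4 y hy).2, t2, fun y hy => (t4 y hy).1,
    fun ad => ⟨t2, fun p hp => (t5 p hp).1, fun y hy => (t4 y hy).1, fun p hp p' hp' e => ?_, fun p hp => ⟨?_, (t5 p hp).2.2, ?_⟩⟩⟩
  · obtain ⟨-, -, -, -, -, k1, k2⟩ := c3 p hp
    obtain ⟨-, -, -, -, -, k3, k4⟩ := c3 p' hp'
    rw [(t5 p hp).2.1, (t5 p' hp').2.1] at e
    rw [← hs.left p k1, t1.inj k2 k4 e, hs.left p' k3]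
  · obtain ⟨-, -, -, -, -, k1, k2⟩ := c3 p hp
    obtain ⟨O, o1, o2, o3⟩ := t1.emb.sm
    rw [(t3 _ k1 k2).2.fderiv_eq, fderiv_comp _
      ((o3.contDiffAt (o1.mem_nhds (o2 k2))).differentiableAt (by simp))
      ((hs.ro.rol.sb.contDiffAt (hs.ro.rol.isOpen.mem_nhds k1)).differentiableAt (by simp))]
    exact (t1.emb.inj _ k2).comp (hs.loc p k1)
  · obtain ⟨y, y1, y2, y3, y4, k1, -⟩ := c3 p hp
    refine (h.mono _ T hT _ _ (t2.cv h.ru hT.lor pd y3 (c4 p k1) fun s hs' => ?_) ?_).le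
    · have k : (s, p.2) ∈ below S :=
        (mem_below c2).2 ⟨_, y4, y2, (sg.2 p hp).1.trans hs'.1, hs'.2⟩
      obtain ⟨-, -, -, -, -, k2, -⟩ := c3 _ k
      exact ⟨(t5 _ k).1, (hs.tl _ k2).1, (t5 _ k).2.2⟩
    · rw [y2, show (((Ψ (J y)).1, (Ψ (J y)).2) : R4) = Ψ (J y) from rfl, (t4 y y1).2]
      exact (h.pos _ _ _ (h.sub _ T hT).2 (ray_rg hZ) ad y y1).2

end Vale.Agent.P354YM
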