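import Vale.Agent.P354YM.G1

/-!
The states of the game, the first state and the step.
-/

open scoped ContDiff
open Set Filter Topology

noncomputable section

namespace Vale.Agent.P354YM

open Vale.Agent.P354n (R4)
open Vale.Agent.P354I (X Dat P3 Con Good)
open Vale.Agent.P354J (PDy Ud)
open Vale.Agent.P354XS (DA BA qm ds)
open Vale.Agent.P354XE
open Vale.Agent.P354XU (L4 Jt IndAt)

/-- The chart of a state. -/
structure Sc where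
  c : R4 → R4
  i : X → R4
  Z : Bool → ℝ
  A : Set R4

/-- A state. -/
def St (C : Cx) : Type := Sc × Set (DA C.j.M C.j.a)

variable {C : Cx}

abbrev St.c (s : St C) : R4 → R4 := s.1.c
abbrev St.i (s : St C) : X → R4 := s.1.i
abbrev St.Z (s : St C) : Bool → ℝ := s.1.Z
abbrev St.A (s : St C) : Set R4 := s.1.A
abbrev St.U (s : St C) : Set (DA C.j.M C.j.a) := s.2

/-- The inner range. -/
def St.Zm (s : St C) : Bool → ℝ := fun σ => s.Z σ - C.w / 8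

/-- The slice in the development of d. -/
structure St.Has (s : St C) (n : ℕ) (d : Dat) (Ω : Set R4) (b : R4 → R4) (E : R4 → L4) :
    Prop where
  rl : C.Rl (C.ext d) d s.c s.i s.Z s.A Ω b E
  adm : C.Ad (Rg s.Z) (b ∘ s.i) (C.ext d).q
  last : C.La s.Z (b ∘ s.i) (C.ext d).q
  wit : ∀ k < n, ∀ d', C.N C.η (C.ext d).q d' →
    (∀ y ∈ Rg s.Zm, IndAt (C.ext d).g (C.ext d).Xf (b ∘ s.i) d' y) → C.Big k d'

structure St.Ok (s : St C) (n : ℕ) : Prop where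
  sg : C.Sg s.c s.i s.Z s.A
  big : ∀ σ, C.j.X0 + 5 + n ≤ s.Z σ
  opn : IsOpen s.U
  sub : s.U ⊆ BA C.j.M C.j.a C.m0 C.η0
  all : ∀ d ∈ s.U, ∃ Ω b E, s.Has n d.1 Ω b E

structure St.Nxt (s s' : St C) : Prop where
  le : ∀ σ, s.Z σ ≤ s'.Z σ
  i : EqOn s'.i s.i (Rg s.Zm)
  c : EqOn s'.c s.c s.A

theorem zm_le (h : C.Ok) (s : St C) : Rg s.Zm ⊆ Rg s.Z :=
  rg_mono fun σ => by linarith [h.w0.1, show s.Zm σ = s.Z σ - C.w / 8 from rfl]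

theorem St.Nxt.zm {s s' : St C} (h : s.Nxt s') : Rg s.Zm ⊆ Rg s'.Zm :=
  rg_mono fun σ => sub_le_sub_right (h.le σ) _

/-- The slices of two consecutive states agree on the inner range. -/
theorem agree (h : C.Ok) {s s' : St C} {T : Tg} {d : Dat} {Ω Ω' : Set R4} {b b' : R4 → R4}
    {E E' : R4 → L4} (hT : T.Is C.P d) (hd : PDy d) (sg : C.Sg s.c s.i s.Z s.A) (hn : s.Nxt s')
    (r : C.Rl T d s.c s.i s.Z s.A Ω b E) (r' : Ro T.g T.D T.Xf d s'.c Ω' b' E')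
    (m' : MapsTo s'.i (Rg s'.Z) Ω') :
    EqOn (b' ∘ s'.i) (b ∘ s.i) (Rg s.Zm) := fun y hy => by
  have k := sg.maps hy
  have k' := m' (zm_le h s' (hn.zm hy))
  rw [hn.i hy] at k'
  rw [Function.comp_apply, hn.i hy]
  refine ((h.ru _ _ _ _ _ _ _ _ hT.lor hd r.ro _ (r.sub k) (sg.tl _ k).2).2 _ _ _ _ r' k'
    fun u hu => (hn.c ?_).symm).symm
  rw [uIcc_of_le (sg.seg.2 _ k).1] at hu
  exact (sg.seg.2 _ k).2 u hu

theorem ro_empty (g : Tw) (D : Set R4) (Xf : R4 → R4) (d : Dat) :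
    Ro g D Xf d 0 ∅ 0 0 :=
  ⟨⟨⟨isOpen_empty, contDiffOn_empty, contDiffOn_empty, mapsTo_empty _ _, fun _ h => h.elim⟩,
    fun _ h => h.elim, fun _ h => h.elim⟩, fun _ h => h.elim, fun _ h => h.elim⟩

theorem img_cpt {J : X → R4} (hJ : ContDiffOn ℝ ∞ J {0}ᶜ) (Z : Bool → ℝ) :
    IsCompact (J '' Rc Z) := (rc_cpt Z).image_of_continuousOn (hJ.continuousOn.mono rc_ne)

/-- The first state. -/
theorem Cx.Ok.start (h : C.Ok) (d0 : DA C.j.M C.j.a) (e0 : d0.1 = ds C.j.M C.j.a) :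
    ∃ s : St C, s.Ok 0 ∧ d0 ∈ s.U := by
  have x0 := h.x0
  have m0 : d0 ∈ BA C.j.M C.j.a C.m0 C.η0 := by
    change qm _ d0.1 _ < _
    rw [e0, P354XQ.qm_self]
    exact ENNReal.ofReal_pos.2 h.η0.1
  have hT := h.hext d0 m0
  obtain ⟨W, τ, V, hr, hA⟩ := h.ref _ _ d0.2.1 hT _ (img_cpt h.j0.1 C.Z0) (by
    rintro _ ⟨y, hy, rfl⟩
    exact ⟨(h.j0.2 y hy.1).1, (h.j0.2 y hy.1).2.le⟩)
  obtain ⟨c, Ω, Φ, Ψ, E, hs, -⟩ := h.str _ _ _ _ _ _ hr.lens _ _ _ d0.1 _ _ _ _ ∅ hT.lor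
    (ro_empty _ _ _ _) ⟨isCompact_empty, fun _ k => k.elim⟩ (empty_subset _) (injOn_empty _)
    fun _ k => k.elim
  have hK : MapsTo C.j.J0 (Rc C.Z0) (KV W τ (V - 1)) := fun y hy => hA ⟨y, hy, rfl⟩
  obtain ⟨A, m, η', e1, sg, hc⟩ := h.core hr hs h.j0.1 hK (fun _ => by simp only [Cx.Z0]; linarith)
    one_pos
  have dsm : P354T.DSm (ds C.j.M C.j.a) := e0 ▸ P354XQ.dsm d0
  refine ⟨⟨⟨c, Ψ ∘ C.j.J0, C.Z0, A⟩,
    P354XQ.ball d0 m (ENNReal.ofReal η') ∩ BA C.j.M C.j.a C.m0 C.η0⟩,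
    ⟨sg, fun _ => by simp, (P354XQ.isOpen_ball' _ _ _).inter (P354XQ.isOpen_BA dsm _ _),
      inter_subset_right, fun d hd => ?_⟩,
    P354XQ.mem_ball_self' _ _ (ENNReal.ofReal_pos.2 e1), m0⟩
  have hT' := h.hext d hd.2
  obtain ⟨b, Ω', b', E', t1, t2, -, -, t3⟩ := hc _ _ d.2.1 hT' (le_of_lt hd.1)
  obtain ⟨a1, a2⟩ := h.l0 _ _ _ _ _ _ _ (h.sub _ _ hT).2 (h.sub _ _ hT').2 t1
    (hK.mono_left rg_rc)
  exact ⟨Ω', b', E', t3 a1, a1.congr (rg_open _) t2, a2.congr t2, fun _ k => (Nat.not_lt_zero _ k).elim⟩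

/-- An admissible slice from an inner part and boxes. -/
theorem adm_glue (h : C.Ok) {Z : Bool → ℝ} {O : Set X} {J J' : X → R4} {q : Bool → Par}
    (hZ : ∀ σ, C.j.X0 + 5 ≤ Z σ) (a : C.Ad (Rg Z) J q)
    (e : EqOn J' J (Rg fun σ => Z σ - C.w / 8)) (sm : ContDiffOn ℝ ∞ J' O) (h0 : O ⊆ {0}ᶜ)
    (bx : ∀ σ, ∀ x ≥ Z σ - 3, C.Bo C.e3 O J' q σ x) : C.Ad O J' q := by
  have x0 := h.x0
  have w0 := h.w0.1
  have w1 := h.w0.2
  refine ⟨sm, fun y y0 y1 => ?_, fun σ x hx => ?_⟩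
  · have k : y ∈ Rg fun σ => Z σ - C.w / 8 := mem_rg (h0 y0) fun σ => by linarith [hZ σ]
    refine jt_congr (a.mid y (rg_mono (fun σ => by linarith) k) y1) ?_
    filter_upwards [(rg_open _).mem_nhds k] with z hz
    simp only [Pi.sub_apply, e hz]
  · rcases le_total (Z σ - 3) x with k | k
    · exact bx σ x k
    · obtain ⟨c, φ, k1⟩ := a.box σ x hx
      refine ⟨c, φ, k1.congr (rg_open _) e fun y y0 y1 _ => ?_⟩
      have k2 : dl σ x y ∈ Rg fun σ => Z σ - C.w / 8 :=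
        shell y0 y1 (x0.trans hx) (by linarith) (by linarith [hZ (!σ)])
      exact ⟨rg_mono (fun σ => by linarith) k2, k2⟩

theorem sd_le {b σ : Bool} {x x' y y' : ℝ} (h : x ≤ y) (h' : x' ≤ y') : sd b x x' σ ≤ sd b y y' σ := by
  unfold sd
  split_ifs
  exacts [h, h']

theorem le_sd {b σ : Bool} {x x' y : ℝ} (h : y ≤ x) (h' : y ≤ x') : y ≤ sd b x x' σ := by
  unfold sd
  split_ifs
  exacts [h, h']

theorem sd_sub (b σ : Bool) (x x' y : ℝ) : sd b x x' σ - y = sd b (x - y) (x' - y) σ := by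
  unfold sd
  split_ifs <;> rfl

/-- The step. -/
theorem Cx.Ok.step (h : C.Ok) {n : ℕ} {s : St C} (hs : s.Ok n) {O : Set (DA C.j.M C.j.a)}
    (o1 : IsOpen O) (o2 : O.Nonempty) (o3 : O ⊆ s.U) :
    ∃ t : St C, s.Nxt t ∧ t.Ok (n + 1) ∧ t.U ⊆ O ∧ t.U.Nonempty := by
  have x0 := h.x0
  have w0 := h.w0.1
  have w1 := h.w0.2
  have n0 : (0 : ℝ) ≤ n := n.cast_nonneg
  have hZ : ∀ σ, C.j.X0 + 5 ≤ s.Z σ := fun σ => by linarith [hs.big σ]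
  obtain ⟨d1, hd1⟩ := o2
  have hT := h.hext d1 (hs.sub (o3 hd1))
  obtain ⟨Ω0, b0, E0, H0⟩ := hs.all d1 (o3 hd1)
  have nq := (h.sub _ _ hT).2
  obtain ⟨J, j0, j2, j3, j4⟩ := h.sw _ _ _ hZ nq H0.adm.sm H0.last
  have j1 : EqOn J (b0 ∘ s.i) (Rg fun σ => s.Z σ - C.w / 8) :=
    j0.mono (rg_mono fun σ => by linarith)
  have ad : C.Ad {0}ᶜ J (C.ext d1.1).q := adm_glue h hZ H0.adm j1 j3 subset_rfl fun σ x hx =>
    let ⟨c, φ, k⟩ := j4 σ x hx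
    ⟨c, φ, k.mono (wt_mono h.η0.2.2 (by linarith [hZ σ]))⟩
  obtain ⟨e1, c1, c2, c3⟩ := h.dat _ _ _ hT ad
  have ca : IsCompact (b0 '' s.A) := hs.sg.seg.1.image_of_continuousOn
    (H0.rl.ro.rol.sb.continuousOn.mono H0.rl.sub)
  have cb : ∀ x ∈ b0 '' s.A, x ∈ C.D ∧ C.r2 ≤ C.r x := by
    rintro _ ⟨p, hp, rfl⟩
    exact (H0.rl.pt p hp).2
  have cc : ∀ x ∈ b0 '' s.A, ∃ y ∈ Rc s.Z,
      Cv (C.ext d1.1).g (C.ext d1.1).Xf (b0 '' s.A) x (J y) := by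
    rintro _ ⟨p, hp, rfl⟩
    obtain ⟨y, y1, y2, y3, y4⟩ := hs.sg.top p hp
    refine ⟨y, rg_rc (rc_rg (fun σ => by linarith) y1), ?_⟩
    rw [j0 (rc_rg (fun σ => by linarith) y1), Function.comp_apply,
      show s.i y = ((s.i y).1, p.2) from Prod.ext rfl y3.symm]
    refine H0.rl.ro.cv h.ru hT.lor d1.2.1 y4 (hs.sg.tl p hp).2 fun u hu => ?_
    have k : (u, p.2) ∈ s.A := y3 ▸ (hs.sg.seg.2 _ y2).2 u ⟨(hs.sg.seg.2 p hp).1.trans hu.1, hu.2⟩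
    exact ⟨H0.rl.sub k, (hs.sg.tl _ k).1, _, k, rfl⟩
  obtain ⟨m', ν, ν0, hν⟩ := P354XQ.mem_nhds_iff_qm.1 (o1.mem_nhds hd1)
  obtain ⟨R1, hk⟩ := h.kck d1 _ J e1 _ hT ad j2 c1 c2 c3 _ ca cb cc m' ν ν0 (C.sn n).1 (C.sn n).2
  obtain ⟨R0, hi⟩ := h.i2 n
  obtain ⟨R, r0, r1, r2⟩ : ∃ R, R0 ≤ R ∧ R1 ≤ R ∧ ∀ σ, s.Z σ + 5 ≤ R :=
    ⟨max (max R0 R1) (max (s.Z true) (s.Z false) + 5), by simp, by simp, fun σ =>
      le_max_of_le_right (by cases σ <;> simp)⟩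
  obtain ⟨x1, hi⟩ := hi R r0
  obtain ⟨A0, a0, d', q1, W', g', X', τ', V', d2, k1, k2, k3, k4, k5, k6, k7⟩ :=
    hk R r1 (max x1 R + 1)
  obtain ⟨ζ, ζ0, e0, he0, hb⟩ := hi A0 a0 _ _ _ nq (c3.mono (by linarith [h.η0.2.1])) k5 k6
  set Z' := sd (C.sn n).2 (R + 9 / 4 * C.w) (max x1 R + 1) with hZ'
  have z1 : ∀ σ, s.Z σ + 5 ≤ Z' σ := fun σ =>
    le_sd (by linarith [r2 σ]) (by linarith [r2 σ, le_max_right x1 R])
  obtain ⟨dc, hc, W, g, Xf, τ, V, f1, f2, f3, f4, f5, f6⟩ : ∃ dc ∈ O, ∃ W g Xf τ V,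
      Ref (C.P.n 18) C.rb W g Xf τ V dc.1 (C.ext d1.1).q ∧ b0 '' s.A ⊆ KV W τ (V - 1) ∧
      MapsTo J (Rc Z') (KV W τ (V - 1)) ∧ (∀ x ∈ b0 '' s.A,
        (∀ᶠ z in 𝓝 x, g z = (C.ext d1.1).g z ∧ Xf z = (C.ext d1.1).Xf z) ∧
          (x.1 = 0 → dc.1.h (xs x) = d1.1.h (xs x))) ∧ PDy e0 ∧
      ∀ y ∈ Rg Z', IndAt g Xf J e0 y := by
    rcases he0 with rfl | rfl
    · obtain ⟨W, τ, V, f1, f2⟩ := h.ref _ _ d1.2.1 hT _ (ca.union (img_cpt j3 Z')) (by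
        rintro _ (k | ⟨y, hy, rfl⟩)
        · exact cb _ k
        · exact (h.pos _ _ _ nq ray_all ad y hy.1).imp_right le_of_lt)
      exact ⟨d1, hd1, W, _, _, τ, V, f1, fun _ k => f2 (.inl k), fun y hy => f2 (.inr ⟨y, hy, rfl⟩),
        fun _ _ => ⟨.of_forall fun _ => ⟨rfl, rfl⟩, fun _ => rfl⟩, c3.1, fun y hy => c2 y hy.1⟩
    · exact ⟨d', hν d' q1.le, W', g', X', τ', V', k1, k2, k3, k4, k5.1, k7⟩
  have kv := kv_mono (W := W) (τ := τ) (show V - 1 ≤ V by linarith)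
  obtain ⟨c, Ω, Φ, Ψ, E, st, s1, s2⟩ := h.str _ _ _ _ _ _ f1.lens _ _ _ _ _ _ _ _ s.A hT.lor H0.rl.ro
    hs.sg.seg H0.rl.sub H0.rl.inj fun p hp => ⟨(H0.rl.pt p hp).1, (hs.sg.tl p hp).1,
      kv (f2 ⟨p, hp, rfl⟩), (f4 _ ⟨p, hp, rfl⟩).1, fun p0 => by
        have e : pt 0 (xs p) = p := p0 ▸ pt_xs p
        have e' : b0 p = p := e ▸ (H0.rl.ro.st (xs p) (e.symm ▸ H0.rl.sub hp :)).1
        have := (f4 _ ⟨p, hp, rfl⟩).2
        rw [e'] at this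
        exact this p0⟩
  have s3 : (Rc fun σ => Z' σ - C.w / 8) ⊆ Rg Z' := rc_rg fun σ => by linarith
  obtain ⟨η, η0, hl⟩ := h.dlip _ _ _ J e0 _ _ f1.lens.lor f5 (rc_cpt _) (rg_open Z') s3
    (j3.mono rg_ne) (fun y hy => ⟨hy.1, (f3 (rg_rc hy)).1, f6 y hy⟩) ζ ζ0
  obtain ⟨A, m, η', e2, sg, hc'⟩ := h.core f1 st j3 f3 (fun σ => by linarith [z1 σ, hZ σ]) η0
  let t : St C := ⟨⟨c, Ψ ∘ J, Z', A⟩, P354XQ.ball dc m (ENNReal.ofReal η') ∩ O⟩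
  have nx : s.Nxt t := ⟨fun σ => by linarith [z1 σ, show t.Z σ = Z' σ from rfl], fun y hy => by
    have k := hs.sg.maps hy
    change Ψ (J y) = _
    rw [j1 hy, Function.comp_apply, ← (s2 _ k).2, st.left _ (s1 k)], fun p hp => (s2 p hp).1⟩
  refine ⟨t, nx, ⟨sg, fun σ => ?_, (P354XQ.isOpen_ball' _ _ _).inter o1,
    fun d hd => hs.sub (o3 hd.2), fun d hd => ?_⟩, inter_subset_right, dc,
    P354XQ.mem_ball_self' _ _ (ENNReal.ofReal_pos.2 e2), hc⟩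
  · push_cast
    linarith [z1 σ, hs.big σ, show t.Z σ = Z' σ from rfl]
  have hT' := h.hext d (hs.sub (o3 hd.2))
  have nq' := (h.sub _ _ hT').2
  obtain ⟨b, Ω', b', E', t1, t2, t4, t5, t3⟩ := hc' _ _ d.2.1 hT' (le_of_lt hd.1)
  obtain ⟨Ω1, b1, E1, H1⟩ := hs.all d (o3 hd.2)
  obtain ⟨l1, l2⟩ := h.l1 _ _ _ _ _ _ _ J Z' nq nq' t1 ad (f3.mono_left rg_rc)
  obtain ⟨Ob, b3, b4, b5⟩ := t1.emb.sm
  have sm : ContDiffOn ℝ ∞ (b ∘ J) (Rg Z') :=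
    b5.comp (j3.mono rg_ne) fun y hy => b4 (f3 (rg_rc hy))
  have ag : EqOn (b' ∘ t.i) (b1 ∘ s.i) (Rg s.Zm) := agree h hT' d.2.1 hs.sg nx H1.rl t4 t5
  have zz : Rg s.Zm ⊆ Rg Z' := nx.zm.trans (zm_le h t)
  have ad' : C.Ad (Rg Z') (b ∘ J) (C.ext d.1).q :=
    adm_glue h hZ H1.adm (fun y hy => (t2 (zz hy)).symm.trans (ag hy)) sm rg_ne fun σ x hx =>
      l1 σ x (by linarith [hZ σ]) (j4 σ x hx)
  refine ⟨Ω', b', E', t3 ad', ad'.congr (rg_open _) t2,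
    (l2 _ j2 fun σ => ⟨by linarith [hZ σ], z1 σ⟩).congr t2, fun k hk' d' n1 n2 => ?_⟩
  rcases (Nat.lt_succ_iff.1 hk').lt_or_eq with k0 | rfl
  · exact H1.wit k k0 d' n1 fun y hy => indAt_congr (n2 y (nx.zm hy))
      (eventually_of_mem ((rg_open _).mem_nhds hy) fun z hz => (ag hz).symm)
  · refine hb _ d' nq' n1 fun y hy => ?_
    have hy' : y ∈ Rg t.Zm := rg_mono (fun σ => (sd_le (by linarith)
      (by linarith [le_max_left x1 R])).trans (sd_sub _ σ _ _ (C.w / 8)).ge) hy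
    refine hl _ b _ _ _ d' hT'.lor (fun z hz => f3 (rg_rc (s3 hz))) (t1.emb.mono (by norm_num))
      (t1.maps.mono_right (h.sub _ _ hT').1) y
      (mem_interior.2 ⟨_, rg_rc, rg_open t.Zm, hy'⟩) ?_
    filter_upwards [(rg_open _).mem_nhds hy'] with z hz
    exact indAt_congr (n2 z hz) (eventually_of_mem ((rg_open _).mem_nhds (zm_le h t hz))
      fun u hu => (t2 hu).symm)

end Vale.Agent.P354YM
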