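import Vale.Agent.P354YM.G2
import Vale.Agent.P354BM.Game

/-!
The second player wins the game.
-/

open scoped ContDiff
open Set Filter Topology

noncomputable section

namespace Vale.Agent.P354YM

open Vale.Agent.P354n (R4)
open Vale.Agent.P354I (X Dat P3 Con Good)
open Vale.Agent.P354J (PDy Ud)
open Vale.Agent.P354XS (DA BA qm ds)
open Vale.Agent.P354XE
open Vale.Agent.P354XU (L4 Jt IndAt)

variable {C : Cx}

theorem Cx.Ok.win (h : C.Ok) {s : ℕ → St C} (hs : ∀ n, (s n).Ok n ∧ (s n).Nxt (s (n + 1)))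
    {d : DA C.j.M C.j.a} (hd : ∀ n, d ∈ (s n).U) : Good d.1 := by
  have x0 := h.x0
  have w1 := h.w0.2
  have hT := h.hext d ((hs 0).1.sub (hd 0))
  have nq := (h.sub _ _ hT).2
  choose Ω b E H using fun n => (hs n).1.all d (hd n)
  have zm : ∀ n σ, C.j.X0 + 4 + n ≤ (s n).Zm σ := fun n σ => by
    linarith [(hs n).1.big σ, show (s n).Zm σ = (s n).Z σ - C.w / 8 from rfl]
  have ag : ∀ n n', n ≤ n' → Rg (s n).Zm ⊆ Rg (s n').Zm ∧
      EqOn (b n' ∘ (s n').i) (b n ∘ (s n).i) (Rg (s n).Zm) := fun n n' k => by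
    induction k with
    | refl => exact ⟨subset_rfl, fun _ _ => rfl⟩
    | step _ ih => exact ⟨ih.1.trans (hs _).2.zm, fun y hy => (agree h hT d.2.1 (hs _).1.sg (hs _).2
        (H _).rl (H _).rl.ro (H _).rl.mem (ih.1 hy)).trans (ih.2 hy)⟩
  have mem : ∀ y ≠ 0, ∀ n : ℕ, |Real.log ‖y‖| ≤ n → y ∈ Rg (s n).Zm := fun y hy n k =>
    mem_rg hy fun σ => by linarith [zm n σ]
  obtain ⟨S, hS⟩ : ∃ S : X → R4, ∀ n, EqOn S (b n ∘ (s n).i) (Rg (s n).Zm) :=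
    ⟨fun y => b ⌈|Real.log ‖y‖|⌉₊ ((s ⌈|Real.log ‖y‖|⌉₊).i y), fun n y hy =>
      ((ag _ _ (le_max_left _ n)).2 (mem y hy.1 _ (Nat.le_ceil _))).symm.trans
        ((ag _ _ (le_max_right _ n)).2 hy)⟩
  have ev : ∀ n, ∀ y ∈ Rg (s n).Zm, S =ᶠ[𝓝 y] b n ∘ (s n).i := fun n y hy =>
    eventually_of_mem ((rg_open _).mem_nhds hy) (hS n)
  have ad : C.Ad {0}ᶜ S (C.ext d.1).q := by
    refine ⟨fun y hy => ?_, fun y y0 y1 => ?_, fun σ x hx => ?_⟩
    · have k := mem y hy _ (Nat.le_ceil _)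
      exact (((H _).adm.sm.contDiffAt ((rg_open _).mem_nhds (zm_le h _ k))).congr_of_eventuallyEq
        (ev _ y k)).contDiffWithinAt
    · have k : y ∈ Rg (s 0).Zm := mem_rg y0 fun σ => by
        linarith [zm 0 σ, show ((0 : ℕ) : ℝ) = 0 from Nat.cast_zero]
      exact jt_congr ((H 0).adm.mid y (zm_le h _ k) y1)
        ((ev 0 y k).mono fun z hz => by simp only [Pi.sub_apply, hz])
    · obtain ⟨c, φ, k⟩ := (H ⌈x⌉₊).adm.box σ x hx
      refine ⟨c, φ, k.congr (rg_open _) (hS _) fun y y0 y1 _ => ?_⟩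
      have k2 : dl σ x y ∈ Rg (s ⌈x⌉₊).Zm := shell y0 y1 (x0.trans hx)
        (by linarith [zm ⌈x⌉₊ σ, Nat.le_ceil x])
        (by linarith [zm ⌈x⌉₊ (!σ), (⌈x⌉₊.cast_nonneg : (0 : ℝ) ≤ _)])
      exact ⟨zm_le h _ k2, k2⟩
  obtain ⟨d', c1, c2, c3⟩ := h.dat _ _ _ hT ad
  have c4 := c3.mono (half_le_self h.η0.2.1.le)
  exact h.good _ _ _ _ d.2.1 hT ad c3.1 c2 (h.i1 _ _ nq c4 c1 fun k =>
    (H (k + 1)).wit k k.lt_succ_self d' c4 fun y hy =>
      indAt_congr (c2 y hy.1) (ev _ y hy).symm)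

/-- The bad set is meagre in a ball about the Kerr data. -/
theorem Cx.Ok.meagre (h : C.Ok) (d0 : DA C.j.M C.j.a) (e0 : d0.1 = ds C.j.M C.j.a) :
    ∃ m, ∃ η > 0, IsMeagre {d : BA C.j.M C.j.a m η | ¬ Good d.1.1} := by
  obtain ⟨s0, k0, k1⟩ := h.start d0 e0
  have key := P354BM.meagre_of_strategy {d : DA C.j.M C.j.a | ¬ Good d.1}
    (fun s : St C => interior s.U) (fun _ => isOpen_interior) (fun _ s t => s.Nxt t)
    (fun n s => s.Ok n) s0 k0
    (fun n s hs O o1 o2 o3 => by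
      obtain ⟨t, t1, t2, t3, t4⟩ := h.step hs o1 o2 (o3.trans interior_subset)
      exact ⟨t, t1, t2, interior_subset.trans t3, t2.opn.interior_eq.symm ▸ t4⟩)
    fun s _ hs d hd => not_not.2 (h.win hs fun n => interior_subset (hd n))
  rw [k0.opn.interior_eq] at key
  obtain ⟨m, η, e1, hη⟩ := P354XQ.mem_nhds_iff_qm.1 (k0.opn.mem_nhds k1)
  have dsm : P354T.DSm (ds C.j.M C.j.a) := e0 ▸ P354XQ.dsm d0
  refine ⟨m, η, e1, (key.preimage_of_isOpenMap continuous_subtype_val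
    (P354XQ.isOpen_BA dsm m η).isOpenMap_subtype_val).mono fun d hd => ?_⟩
  exact mem_preimage.2 (And.intro hd (hη _ (by rw [e0]; exact le_of_lt d.2)))

end Vale.Agent.P354YM
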