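import Vale.Agent.P354YM.G3
import Vale.Agent.P354XK.KD
import Vale.Agent.P354YJ.Chain

/-!
The choice of the constants, and the reduction of the conditional theorem to the blocks.
-/

open scoped ContDiff
open Set Filter Topology

noncomputable section

namespace Vale.Agent.P354YM

open Vale.Agent.P354n (R4)
open Vale.Agent.P354I (X Dat P3 Con Good rm rp)
open Vale.Agent.P354J (PDy Ud)
open Vale.Agent.P354XS (DA BA qm ds Q1')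
open Vale.Agent.P354XE
open Vale.Agent.P354XU (L4 Jt IndAt)

section
variable {M a r1 θ R s δ ε ε' c c' e e' : ℝ} {N : ℕ} {g : Tw} {Y : R4 → R4} {p : R4} {q q' : Par}
  {β : Fin 3 → R4 → ℝ} {f : R4 → ℝ}

theorem bd_up (h : Bd N g p c) (k : c ≤ c') : Bd N g p c' := fun j hj v w =>
  (h j hj v w).trans (mul_le_mul_of_nonneg_right k (by positivity))

theorem wb_up {u v u' v' : ℝ} (h : Wb M a N f p (ε * u) (ε * v)) (k : ε ≤ ε') (hu : 0 ≤ u)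
    (hv : 0 ≤ v) (e1 : u' = ε' * u) (e2 : v' = ε' * v) : Wb M a N f p u' v' := fun α j =>
  ⟨(h α j).1.trans (e1 ▸ mul_le_mul_of_nonneg_right k hu),
    (h α j).2.trans (e2 ▸ mul_le_mul_of_nonneg_right k hv)⟩

theorem isEnd_up (h : IsEnd M a r1 θ R s δ ε N g Y q q' β) (k : ε ≤ ε') :
    IsEnd M a r1 θ R s δ ε' N g Y q q' β := by
  have w : ∀ p : R4, ε * (1 + |p.1|) ^ (-s) ≤ ε' * (1 + |p.1|) ^ (-s) := fun p =>
    wt_mono k (abs_nonneg _)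
  refine ⟨⟨Par.near_mono h.par.1 k, Par.near_mono h.par.2 k⟩, fun p a b => (h.near p a b).imp id
    fun j => ⟨bd_up j.1 k, bd_up j.2 (w p)⟩, fun p a b => bd_up (h.conv p a b) (w p),
    fun p a b => (h.far p a b).imp id fun j => ?_⟩
  have r0 : 0 ≤ rd p := norm_nonneg _
  have u0 : 0 ≤ uw q'.M q'.a p ^ (-s) := Real.rpow_nonneg (Real.sqrt_nonneg _) _
  have w0 : 0 ≤ wt q'.M q'.a δ p :=
    add_nonneg (Real.rpow_nonneg (Real.sqrt_nonneg _) _) (Real.rpow_nonneg r0 _)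
  have v0 := mul_nonneg r0 u0
  exact ⟨j.gauge, j.smooth,
    fun i => wb_up (by simpa only [mul_one] using j.la i) k zero_le_one u0 (mul_one _).symm rfl,
    fun i => ⟨wb_up (j.shift i).1 k u0 u0 rfl rfl, wb_up (j.shift i).2 k w0 w0 rfl rfl⟩,
    wb_up j.tt k (by linarith) v0 rfl rfl, fun i n => wb_up (j.tt' i n) k (by linarith) v0 rfl rfl,
    fun i => wb_up (j.ta i) k w0 u0 rfl rfl,
    fun i n => wb_up (by simpa only [mul_one] using j.aa i n) k zero_le_one u0 (mul_one _).symm rfl⟩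

theorem LocC.mono {n : ℕ} {A K : Set R4} {b : R4 → R4} (h : LocC n e A K b) (k : e ≤ e') :
    LocC n e' A K b := fun p a b => jt_mono (h p a b) k

theorem LocD.mono {P : Pm} {r0 t1 L : ℝ} {n : ℕ} {K : Set R4} {q q' : Bool → Par} {b : R4 → R4}
    (h : LocD P r0 t1 L n e K q q' b) (h0 : 0 < e) (k : e ≤ e') : LocD P r0 t1 L n e' K q q' b :=
  fun σ t0 ht => let ⟨c, φ, j⟩ := h σ t0 ht
    ⟨c, φ, fun p a1 a2 a3 a4 => by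
      obtain ⟨b1, b2, b3, b4⟩ := j p a1 a2 a3 a4
      have w := mul_le_mul_of_nonneg_right k
        (nonneg_of_mul_nonneg_right ((abs_nonneg _).trans b1) h0)
      exact ⟨b1.trans w, b2.trans w, b3, jt_mono b4 w⟩⟩

theorem Cls.le {P : Pm} {K : Set R4} {Xf : R4 → R4} {q : Bool → Par} (h : Cls P K g Xf q)
    (k : N ≤ P.N) : Cls (P.n N) K g Xf q :=
  ⟨h.par, fun σ p a b c => (h.near σ p a b c).imp_left fun u i j => u i (j.trans k),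
    fun p a b c => (h.mid p a b c).imp_left fun u i j => u i (j.trans k),
    fun σ p a b c i j => h.conv σ p a b c i (j.trans k)⟩

/-- GT in the form which is used. -/
theorem evt_gt (hG : GT) {r0 r2 : ℝ} (hB : Bs M a r1 r0 r2 s δ) : Evt M a r1 s δ fun P =>
    ∀ d (T : Tg), PDy d → T.Is P d → ∀ r3 ρ J d', Sl M a r1 r2 r3 T.g T.Xf ρ J → PDy d' →
      Ind T.g T.Xf J d' → GGp d' → Good d := by
  refine ⟨1, one_pos, fun θ hθ => ?_⟩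
  obtain ⟨R0, H⟩ := hG M a s δ r1 r2 θ hB.ne hB.lt hB.hs hB.hδ hB.r1.1
    (hB.r1.2.1.trans hB.r1.2.2.1) hB.r1.2.2.2 hθ.1
  refine ⟨R0, fun R hR => ⟨2, fun N hN => (H R hR).imp fun e k =>
    ⟨k.1, fun ε hε d T pd hT => k.2 N hN d T.D T.g T.Xf pd ⟨hT.lor, hT.sub, hT.ind, hT.box,
      fun σ => ⟨_, _, _, _, hT.ori σ, isEnd_up (hT.ends σ) hε.2⟩⟩⟩⟩⟩

end

theorem Jd.Is.w {j : Jd} (h : j.Is) (x : ℝ) : (j.w x).Is := ⟨h.hG, h.hH, h.hK, h.hT⟩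

theorem Jd.Is.t {j : Jd} (h : j.Is) {T : ℝ} (k : 0 ≤ T) : (j.t T).Is := ⟨h.hG, h.hH, h.hK, k⟩

/-- The conditional theorem from the blocks. -/
theorem q1_of (hJ : P354YJ.JP) (hG : GT) (ru : RU2) (str : STR) (dlip : DLIP) (cls : CLS)
    (mono : MONO) (lens : LENS) (trans : TRANS) (sw : SWITCH) (locs : LOCS) (dat : DAT)
    (slc : SLC) (int : INT) (kck : KCK) (ext : EXT2) : Q1' := by
  intro M a ha hM
  have sq := Real.sqrt_pos.2 (show 0 < M ^ 2 - a ^ 2 by nlinarith [sq_abs a, abs_nonneg a])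
  have m1 : rm M a < M := by rw [rm]; linarith
  have m2 : M < rp M a := by rw [rp]; linarith
  obtain ⟨ε0, δ0, δ1, C0, G, H, K, g1, g2, g3⟩ := hJ M a M ha hM m1 m2
  obtain ⟨j0, rfl, rfl, i0⟩ : ∃ j0 : Jd, j0.M = M ∧ j0.a = a ∧ j0.Is :=
    ⟨⟨M, a, ε0, δ0, δ1, 0, 0, C0, G, H, K⟩, rfl, rfl, g1, g2, g3, le_rfl⟩
  obtain ⟨s, hs, δ, hδ, ext⟩ := ext _ _ ha hM
  obtain ⟨Λ, kck⟩ := kck
  obtain ⟨w0, w1, kck⟩ := kck j0 s δ 18 i0 ha hM hs hδ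
  obtain ⟨w, w2, w3, w4⟩ : ∃ w > 0, w ≤ w0 ∧ w ≤ 1 / 4 :=
    ⟨min w0 (1 / 4), lt_min w1 (by norm_num), min_le_left _ _, min_le_right _ _⟩
  obtain ⟨T, t0, η, η1, εp, p1, Big, sn, i1, i2⟩ := int j0 s Λ i0 hs w ⟨w2, w4⟩
  have i := i0.t t0
  obtain ⟨r2, hr, ra, j1, j2⟩ := P354YJ.rad _ i ha hM
  obtain ⟨rb, b1, b2⟩ := exists_between hr.1
  obtain ⟨rc, c1, c2⟩ := exists_between b1
  obtain ⟨r1, d1, d2⟩ := exists_between c1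
  have B1 : Bs j0.M j0.a r1 rb r2 s δ := ⟨ha, hM, ⟨d1, d2.trans c2, b2, hr.2.trans m2⟩, hs, hδ⟩
  have B2 : Bs j0.M j0.a r1 rc rb s δ :=
    ⟨ha, hM, ⟨d1, d2, c2, b2.trans (hr.2.trans m2)⟩, hs, hδ⟩
  obtain ⟨t1, trans⟩ := trans _ _ _ _ _ _ _ B2 13
  obtain ⟨L, x1, locs⟩ := locs _ _ _ _ _ _ i B1 ra 13 t1
  obtain ⟨x2, dat⟩ := dat _ _ _ _ _ _ i B1 ra
  obtain ⟨x3, slc⟩ := slc _ _ _ _ _ _ i B1 ra
  obtain ⟨x4, kck⟩ := kck w ⟨w2, w3⟩ T t0 _ rfl _ _ _ B1 ra (j0.k / 64)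
    (div_pos i0.hG.pos0.1 (by norm_num)) η η1
  obtain ⟨Cc, chain⟩ := P354YJ.chain _ _ _ _ _ _ i B1 ra
  obtain ⟨x0, y0, y1, y2, y3, y4⟩ : ∃ x0 : ℝ, 1 ≤ x0 ∧ x1 ≤ x0 ∧ x2 ≤ x0 ∧ x3 ≤ x0 ∧ x4 ≤ x0 :=
    ⟨max 1 (max x1 (max x2 (max x3 x4))), by simp, by simp, by simp, by simp, by simp⟩
  obtain ⟨A, a1, a2, e0, a3, locs⟩ := locs x0 y1
  obtain ⟨ec, q0, chain⟩ := chain x0 y0
  obtain ⟨ed, q1, dat⟩ := dat x0 y2 (η / 2) (half_pos η1)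
  obtain ⟨es, q2, slc⟩ := slc x0 y3
  obtain ⟨ek, q3, kck⟩ := kck x0 y4
  obtain ⟨e3, z0, z1, z2, z3, z4, z5⟩ :
      ∃ e > 0, e ≤ e0 ∧ e ≤ ec ∧ e ≤ ed ∧ e ≤ es ∧ e ≤ ek :=
    ⟨min e0 (min ec (min ed (min es ek))), by positivity, by simp, by simp, by simp, by simp,
      by simp⟩
  obtain ⟨eA, u0, lA⟩ := locs e3 z0
  obtain ⟨e1, u1, sw⟩ := sw _ _ _ _ _ _ (i.w x0) B1 y0 13 (w / 16) ⟨by linarith, by linarith⟩
    (min eA e3) (lt_min u0 z0)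
  obtain ⟨eB, u2, lB⟩ := locs (min e1 e3) (lt_min u1 z0)
  have u3 := lt_min u0 u2
  have ev := ((((((((cls _ _ _ _ _ _ _ B1).and (lens _ _ _ _ _ _ _ B1)).and
    (mono _ _ _ _ _ _ _ B1)).and (trans L A a1 (fun p hp => ⟨(a2 p hp).1,
      b2.le.trans (a2 p hp).2.1, (a2 p hp).2.2⟩) _ u3)).and dat).and slc).and kck).and
    (evt_gt hG B1)).and (evt_basic one_pos (lt_min (lt_min u3 u1) (lt_min q0 p1)) 0 18)
  obtain ⟨θ0, v0, ev⟩ := ev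
  obtain ⟨θ, v1, ext⟩ := ext r1 ⟨d1, B1.r1.2.1.trans (b2.trans B1.r1.2.2.2)⟩ θ0 v0
  obtain ⟨R0, ev⟩ := ev θ v1
  obtain ⟨R, v2, ext⟩ := ext R0
  obtain ⟨N, ev⟩ := ev R v2
  obtain ⟨ε, v3, ev⟩ := ev N le_rfl
  obtain ⟨m0, η0, v4, ext⟩ := ext N ε v3
  obtain ⟨⟨⟨⟨⟨⟨⟨⟨cls, lens⟩, mono⟩, trans⟩, dat⟩, slc⟩, kck⟩, gt⟩, -, -, v6, -, v5⟩ :=
    ev ε ⟨v3, le_rfl⟩
  simp only [le_min_iff] at v5
  obtain ⟨⟨⟨f1, f2⟩, f3⟩, f4, f5⟩ := v5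
  have : Nonempty Tg := ⟨⟨∅, 0, 0, 0, fun _ => ⟨0, 0, 0, 0⟩, fun _ => ⟨0, 0, 0, 0⟩, 0⟩⟩
  have x0' : (0 : ℝ) ≤ x0 := by linarith
  have bl : ∀ q : Par, q.Near j0.M j0.a ε → pp j0.M q ∈ Metric.ball j0.p0 εp := fun q hq =>
    pp_mem (Par.near_mono hq f5)
  refine Cx.Ok.meagre (C := ⟨(j0.t T).w x0, ⟨j0.M, j0.a, r1, θ, R, s, δ, ε, N⟩, rb, r2, w, η, εp, e3,
    e1, min eA e3, min eA eB, t1, L, Λ, η0, m0, A, Big, sn, fun d => Classical.epsilon fun T : Tg =>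
      T.Is ⟨j0.M, j0.a, r1, θ, R, s, δ, ε, N⟩ d⟩) ⟨⟨w2, by linarith⟩, y0, ⟨v4, η1, min_le_right _ _⟩,
    ru, str, dlip, fun d hd => Classical.epsilon_spec (ext d hd),
    fun d T hT => ⟨hT.sub, fun σ => (hT.ends σ).par.1⟩, bl, ⟨j1, fun y hy => ⟨⟨(j2 y hy).1,
      (j2 y hy).2.1.le, (B1.r1.2.1.trans b2).trans (j2 y hy).2.2⟩, (j2 y hy).2.2⟩⟩,
    fun d T pd hT A a1 a2 => ?_, fun W g Xf τ V d q c Ω Φ Ψ E h1 h2 η hη => ?_, mono,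
    fun O J q h1 h2 h3 y hy => ?_, fun Z J q h1 h2 h3 h4 => ?_, fun K g Xf q η T b h1 h2 h3 h4 => ?_,
    fun K g Xf q η T b J Z' h1 h2 h3 h4 h5 => ?_, fun d T J h1 h2 => dat d T J h1 (h2.mono z3 x0'),
    fun d T J d' h1 h2 h3 h4 h5 h6 => ?_, fun q d h1 h2 => i1 _ (bl _ (h1 _)) _ (bl _ (h1 _)) d h2,
    fun n => ?_, fun d T J d1 Z h1 h2 => kck d T J d1 Z h1 (h2.mono z5 x0')⟩
    ⟨ds j0.M j0.a, (P354XK.kd _ _ hM).1, (P354XK.kd _ _ hM).2, fun m =>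
      (P354XQ.qm_self m _).trans_lt ENNReal.zero_lt_top⟩ rfl
  · obtain ⟨W, τ, V, -, k1, k2, k3⟩ := lens d T pd hT A a1 a2
    exact ⟨W, τ, V, ⟨k1, ((cls d T hT).mono (subset_univ _)).le v6, k3⟩, k2⟩
  · obtain ⟨m, η', k0, k⟩ := trans W g Xf τ V d q c Ω Φ Ψ E h1 h2 η hη
    refine ⟨m, η', k0, fun d' T a b c => ?_⟩
    obtain ⟨b, Ω', b', E', k1, k2, k3, k4, k5, k6, k7⟩ := k d' T a b c
    exact ⟨b, Ω', b', E', ⟨k1, k2, k3, k6, k7⟩, k4, k5⟩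
  · have k := (chain 13 e3 z2 O J q (fun σ => Par.near_mono (h1 σ) f4) h2 h3 y hy).1
    exact ⟨k.1, k.2.1⟩
  · exact sw Z J q h1 (fun σ => Par.near_mono (h2 σ) f3) h3 h4
  · obtain ⟨O, o1, o2, o3⟩ := h3.emb.sm
    have k := (lB _ K O q T.q b rfl rfl rfl (fun σ => ⟨Par.near_mono (h1 σ) f2,
      Par.near_mono (h2 σ) f2⟩) o1 o2 o3 (h3.lc.mono (min_le_right _ _))
      (h3.ld.mono u3 (min_le_right _ _))).1 h4
    exact ⟨k.1.mono (min_le_right _ _) x0', k.2.mono (min_le_left _ _) fun _ => by linarith⟩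
  · obtain ⟨O, o1, o2, o3⟩ := h3.emb.sm
    have k := (lB _ K O q T.q b rfl rfl rfl (fun σ => ⟨Par.near_mono (h1 σ) f2,
      Par.near_mono (h2 σ) f2⟩) o1 o2 o3 (h3.lc.mono (min_le_right _ _))
      (h3.ld.mono u3 (min_le_right _ _))).2 J Z' (h4.mono z1 x0') h5
    have k' := (lA _ K O q T.q b rfl rfl rfl (fun σ => ⟨Par.near_mono (h1 σ) f1,
      Par.near_mono (h2 σ) f1⟩) o1 o2 o3 (h3.lc.mono (min_le_left _ _))
      (h3.ld.mono u3 (min_le_left _ _))).2 J Z' (h4.mono z1 x0') h5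
    exact ⟨fun σ x hx ⟨c, φ, l⟩ => k'.1 σ x hx c φ (l.mono (wt_mono (min_le_left _ _)
      (x0'.trans hx))), fun Z l1 l2 => (k.2 Z l1 l2).mono (min_le_left _ _) fun σ => by
        linarith [show x0 ≤ Z σ from (l2 σ).1, (l2 σ).2]⟩
  · obtain ⟨r3, ρ, k⟩ := slc d T J h2 (h3.mono z4 x0')
    exact gt d T h1 h2 r3 ρ J d' k h4 h5 h6
  · obtain ⟨R0, k⟩ := i2 n
    refine ⟨R0, fun R hR => (k R hR).imp fun x1 k A hA q d1 d2 h1 h2 h3 h4 => ?_⟩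
    obtain ⟨ζ, k0, d0, k1, k2⟩ := k A hA _ (bl _ (h1 _)) _ (bl _ (h1 _)) d1 d2 h2 h3 h4
    exact ⟨ζ, k0, d0, k1, fun q' d h5 => k2 _ (bl _ (h5 _)) _ (bl _ (h5 _)) d⟩

end Vale.Agent.P354YM
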