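import Vale.Agent.P354YM.KDefs
import Vale.Agent.P354YM.G0
import Vale.Agent.P354YS.Cv
import Vale.Agent.P354GL.Glue
import Vale.Agent.P354SN.Fl
import Vale.Agent.P354XJ.Col
import Vale.Agent.P354QF.Unq

/-!
Tools for the lens of the kicked metric.
-/

open scoped ContDiff
open Set Filter Topology

noncomputable section

namespace Vale.Agent.P354YM

open Vale.Agent.P354n (R4)
open Vale.Agent.P354H (X3)
open Vale.Agent.P354C (Ix met)
open Vale.Agent.P354I (X Dat)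
open Vale.Agent.P354J (PDy Phi Psi)
open Vale.Agent.P354D (sgn)
open Vale.Agent.P354R (Pull)
open Vale.Agent.P354GT (Fu)
open Vale.Agent.P354XE (Tw pt xs Lor Tm)
open Vale.Agent.P354XU (IndAt)
open Vale.Agent.P354YJ (iv)
open Vale.Agent.P354LN (Mo Ms Ca df ms_of)
open Vale.Agent.P354KX

/-! ### Steps -/

section
variable {a b c x : ℝ} {h : ℝ → ℝ}

def stp (a b x : ℝ) : ℝ := Real.smoothTransition ((x - a) / (b - a))

theorem stp_cd : ContDiff ℝ 1 (stp a b) :=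
  Real.smoothTransition.contDiff.comp ((contDiff_id.sub contDiff_const).div_const _)

theorem stp_mono (k : a < b) : Monotone (stp a b) := fun _ _ j => Real.smoothTransition.monotone
  (div_le_div_of_nonneg_right (sub_le_sub_right j _) (sub_pos.2 k).le)

theorem stp_zero (k : a < b) (j : x ≤ a) : stp a b x = 0 := Real.smoothTransition.zero_of_nonpos
  (div_nonpos_of_nonpos_of_nonneg (sub_nonpos.2 j) (sub_pos.2 k).le)

theorem stp_one (k : a < b) (j : b ≤ x) : stp a b x = 1 := Real.smoothTransition.one_of_one_le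
  ((one_le_div (sub_pos.2 k)).2 (sub_le_sub_right j _))

theorem stp_nn : 0 ≤ stp a b x := Real.smoothTransition.nonneg _

theorem stp_le : stp a b x ≤ 1 := Real.smoothTransition.le_one _

theorem le_of_stp (k : a < b) (j : stp a b x ≤ 0) : x ≤ a := not_lt.1 fun i =>
  (Real.smoothTransition.pos_of_pos (div_pos (sub_pos.2 i) (sub_pos.2 k))).not_ge j

theorem lt_of_stp (k : a < b) (j : stp a b x < 1) : x < b := not_le.1 fun i => j.ne (stp_one k i)

/-- A level which is crossed only upwards. -/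
theorem up (hc : ContinuousOn h (Icc a b))
    (hd : ∀ t ∈ Icc a b, h t = c → ∃ h' > 0, HasDerivAt h h' t) (ha : c ≤ h a) :
    ∀ t ∈ Ioc a b, c < h t := by
  have k : Icc a b ⊆ h ⁻¹' Ici c := IsClosed.Icc_subset_of_forall_mem_nhdsWithin
    (by rw [inter_comm]; exact hc.preimage_isClosed_of_isClosed isClosed_Icc isClosed_Ici) ha
    fun x ⟨x1, x2⟩ => by
      rcases (show c ≤ h x from x1).eq_or_lt with e | e
      · obtain ⟨h', j1, j2⟩ := hd x (Ico_subset_Icc_self x2) e.symm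
        filter_upwards [P354SN.lt_right j2.neg (neg_neg_of_pos j1)] with t ht
        exact e ▸ (neg_lt_neg_iff.1 ht).le
      · exact nhdsWithin_le_of_mem (mem_of_superset (Icc_mem_nhdsGT x2.2)
          (Icc_subset_Icc_left x2.1)) (((hc x (Ico_subset_Icc_self x2)).eventually_const_lt
            e).mono fun _ => le_of_lt)
  refine fun t ht => (show c ≤ h t from k (Ioc_subset_Icc_self ht)).lt_of_ne fun e => ?_
  obtain ⟨h', j1, j2⟩ := hd t (Ioc_subset_Icc_self ht) e.symm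
  obtain ⟨s, s1, s2⟩ := ((P354SN.lt_left j2 j1).and (Ioo_mem_nhdsLT ht.1)).exists
  exact (e ▸ s1).not_ge (k ⟨s2.1.le, s2.2.le.trans ht.2⟩)

theorem dn (hc : ContinuousOn h (Icc a b))
    (hd : ∀ t ∈ Icc a b, h t = c → ∃ h' > 0, HasDerivAt h h' t) (hb : h b ≤ c) :
    ∀ t ∈ Ico a b, h t < c := fun _ ht => not_le.1 fun k =>
  (up (hc.mono (Icc_subset_Icc_left ht.1)) (fun s hs => hd s (Icc_subset_Icc_left ht.1 hs)) k b
    ⟨ht.2, le_rfl⟩).not_ge hb

theorem dn' (hc : ContinuousOn h (Icc a b))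
    (hd : ∀ t ∈ Icc a b, h t = c → ∃ h' > 0, HasDerivAt h h' t) (hb : h b ≤ c) :
    ∀ t ∈ Icc a b, h t ≤ c := fun t ht =>
  ht.2.eq_or_lt.elim (fun e => e ▸ hb) fun e => (dn hc hd hb t ⟨ht.1, e⟩).le

end

/-! ### Time functions -/

section
variable {C : R4 → Prop} {f ρ τ h : R4 → ℝ} {g g' : Tw} {D D' K B B' : Set R4} {Xf X' Ψ : R4 → R4}
  {x p : R4} {U U' : R4 → Ix → ℝ}

theorem der {γ : ℝ → R4} {v : R4} {t : ℝ} (k : ContDiffAt ℝ 1 f (γ t)) (hγ : HasDerivAt γ v t) :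
    HasDerivAt (fun s => f (γ s)) (fderiv ℝ f (γ t) v) t :=
  (df k).hasFDerivAt.comp_hasDerivAt t hγ

theorem mo_mul {c : ℝ} (k : Mo C f x) (hc : 0 ≤ c) : Mo C (fun z => c * f z) x :=
  k.comp (φ := fun s => c * s) (by fun_prop) fun _ _ j => mul_le_mul_of_nonneg_left j hc

theorem mo_stp {a b : ℝ} (hab : a < b) (hc : ContinuousAt ρ x) (k : a ≤ ρ x → Mo C ρ x) :
    Mo C (fun z => stp a b (ρ z)) x := (le_or_gt a (ρ x)).elim
  (fun j => (k j).comp stp_cd (stp_mono hab)) fun j =>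
    Mo.ev 0 ((hc.eventually_lt continuousAt_const j).mono fun _ i => stp_zero hab i.le)

theorem band {Q : R4 → Prop} (hK : IsCompact K) (hc : ContinuousOn ρ K)
    (k : ∀ x ∈ K, ρ x = 0 → ∀ᶠ z in 𝓝 x, Q z) : ∃ ε > 0, ∀ x ∈ K, |ρ x| ≤ ε → Q x := by
  obtain ⟨e, e0, he⟩ := (hK.diff (isOpen_interior (s := {z | Q z}))).exists_forall_le'
    (hc.abs.mono sdiff_subset) (a := 0) fun x hx =>
      abs_pos.2 fun j => hx.2 (mem_interior_iff_mem_nhds.2 (k x hx.1 j))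
  refine ⟨e / 2, half_pos e0, fun x hx j => by_contra fun i => ?_⟩
  linarith [he x ⟨hx, fun u => i (interior_subset u)⟩]

theorem dom (l : Lor g D Xf) (hK : IsCompact K)
    (k : ∀ x ∈ K, x ∈ D ∧ Ms (Ca g Xf x) f x ∧ ContDiffAt ℝ 1 τ x) :
    ∃ c ≥ 0, ∀ x ∈ K, Ms (Ca g Xf x) (fun z => τ z + c * f z) x := by
  obtain ⟨c, hc⟩ : ∃ c, ∀ c' ≥ c, ∀ x ∈ K, ∀ w, Ca g Xf x w →
      0 < fderiv ℝ τ x w + c' * fderiv ℝ f x w := by
    refine hK.induction_on (p := fun s => ∃ c, ∀ c' ≥ c, ∀ x ∈ s, ∀ w, Ca g Xf x w →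
      0 < fderiv ℝ τ x w + c' * fderiv ℝ f x w) ⟨0, fun _ _ _ j => j.elim⟩
      (fun _ _ i ⟨c, j⟩ => ⟨c, fun c' a x b => j c' a x (i b)⟩)
      (fun _ _ ⟨c, i⟩ ⟨d, j⟩ => ⟨max c d, fun c' a x b => b.elim (i c' (le_of_max_le_left a) x)
        (j c' (le_of_max_le_right a) x)⟩) fun x hx => ?_
    obtain ⟨a1, a2, a3⟩ := k x hx
    obtain ⟨C, C0, hC⟩ := P354XJ.tm_bound l a1 (a2.tm l a1)
    have b := (a3.continuousAt_fderiv one_ne_zero).norm.eventually_lt_const (lt_add_one _)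
    set A := ‖fderiv ℝ τ x‖ + 1
    refine ⟨_, mem_nhdsWithin_of_mem_nhds (hC.and b), A * C + 1, fun c' hc z hz w hw => ?_⟩
    have b1 := hz.1 w hw.2.1 hw.2.2
    have b2 := (abs_le.1 ((fderiv ℝ τ z).le_of_opNorm_le hz.2.le w)).1
    have b3 := (mul_pos_iff_of_pos_left C0).1 ((norm_pos_iff.2 hw.1).trans_le b1)
    have b4 := mul_le_mul_of_nonneg_left b1 (show 0 ≤ A by positivity)
    nlinarith
  refine ⟨max c 0, le_max_right _ _, fun x hx => ⟨(k x hx).2.2.add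
    (contDiffAt_const.mul (k x hx).2.1.1), fun w hw => ?_⟩⟩
  rw [fderiv_fun_add (df (k x hx).2.2) ((df (k x hx).2.1.1).const_mul _),
    fderiv_const_mul (df (k x hx).2.1.1)]
  exact hc _ (le_max_left _ _) x hx w hw

/-- A sublevel set of a time function on a compact set. -/
theorem sublens {W : Set R4} {V : ℝ} {d : Dat} (l : Lor g W Xf) (ne : ∀ p ∈ W, xs p ≠ 0)
    (pd : PDy d) (hK : IsCompact K) (k : ∀ x ∈ K, x ∈ W ∧ 0 ≤ x.1 ∧ Ms (Ca g Xf x) f x)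
    (s : KV W f V ⊆ K) (sg : ∀ y, pt 0 y ∈ K → Tm g Xf (fun p => p.1) (pt 0 y) ∧
      ∀ᶠ z in 𝓝 y, IndAt g Xf (pt 0) d z) : Lens W g Xf f V d := by
  refine ⟨l, ne, pd, ?_, fun p hp => (k p (s hp)).2.2.tm l hp.1, fun y hy => sg y (s hy)⟩
  rw [show KV W f V = K ∩ f ⁻¹' Iic V from Subset.antisymm (fun x hx => ⟨s hx, hx.2.2⟩)
    fun x hx => ⟨(k x hx.1).1, (k x hx.1).2.1, hx.2⟩]
  exact hK.of_isClosed_subset (ContinuousOn.preimage_isClosed_of_isClosed (fun x hx =>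
    (k x hx).2.2.1.continuousAt.continuousWithinAt) hK.isClosed isClosed_Iic) inter_subset_left

theorem indAt_met {J : X → R4} {d d' : Dat} {y : X} (k : IndAt g Xf J d y)
    (e : ∀ᶠ z in 𝓝 (J y), g' z = g z ∧ X' z = Xf z) (e1 : d'.h y = d.h y ∧ d'.K y = d.K y) :
    IndAt g' X' J d' y := by
  obtain ⟨G, n, k1, k2⟩ := k
  have u : ∀ a b c, P354n.deriv (fun z => g' z a b) (J y) c =
      P354n.deriv (fun z => g z a b) (J y) c := fun a b c =>
    EventuallyEq.lineDeriv_eq (e.mono fun z j => by simp only [j.1])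
  exact ⟨G, n, fun a b c => by rw [u, u, u, e.self_of_nhds.1]; exact k1 a b c, by
    rw [e.self_of_nhds.1, e.self_of_nhds.2, e1.1, e1.2]; exact k2⟩

theorem cn_nv : Cn U p nv := ⟨by simp [nv], (P354GL.met_nn U p).le, zero_le_one⟩

theorem mo_vv (F : Fu U B) (hp : p ∈ B) : Mo (Cn U p) vv p :=
  ⟨by unfold vv; fun_prop, fun w hw => by
    rw [show fderiv ℝ vv p = _ from ((hasFDerivAt_fst (𝕜 := ℝ) (p := p)).add
      (hasFDerivAt_snd (p := p)).fst).fderiv]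
    exact (P354YS.cv.2 U p w (F.2 p hp).1 (F.2 p hp).2.1 hw).2⟩

/-- A time function which is constant on a slice of the chart is a time function for every
double null metric. -/
theorem slice {c : ℝ} (P : Pull Ψ (met U) B g D) (hp : p ∈ B) (F : Fu U' B') (hp' : p ∈ B')
    (n : Ca g Xf (Ψ p) (fderiv ℝ Ψ p nv)) (e : ∀ᶠ z in 𝓝 p.2, h (Ψ (p.1, z)) = c)
    (k : Ms (Ca g Xf (Ψ p)) h (Ψ p)) : Ms (Cn U' p) (fun q => h (Ψ q)) p := by
  have s : ContDiffAt ℝ 1 Ψ p := (P.smooth.contDiffAt (P.open'.mem_nhds hp)).of_le (by simp)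
  have c1 : ContDiffAt ℝ 1 (fun q => h (Ψ q)) p := k.1.comp p s
  refine ⟨c1, fun w hw => ?_⟩
  have w1 := (P354YS.cv.2 U' p w (F.2 p hp').1 (F.2 p hp').2.1 hw).1
  have d1 := ((df k.1).hasFDerivAt.comp p (s.differentiableAt one_ne_zero).hasFDerivAt).fderiv
  have d2 := HasFDerivAt.comp p.2 (f := fun z => (p.1, z)) (df c1).hasFDerivAt
    (hasFDerivAt_prodMk_right p.1 p.2)
  have d3 := d2.unique ((hasFDerivAt_const c p.2).congr_of_eventuallyEq e)
  have d4 : fderiv ℝ (fun q => h (Ψ q)) p (0, w.2 - w.1 • nv.2) = 0 :=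
    congrArg (fun L : X3 →L[ℝ] ℝ => L (w.2 - w.1 • nv.2)) d3
  rw [show w = w.1 • nv + (0, w.2 - w.1 • nv.2) from Prod.ext (by simp [nv]) (by simp), map_add,
    d4, map_smul, add_zero, show fderiv ℝ (fun q => h (Ψ q)) p = _ from d1]
  exact mul_pos w1 (k.2 _ n)

end

/-! ### The labels -/

theorem iv_norm (y : X) : ‖iv y‖ = ‖y‖⁻¹ := by
  rcases eq_or_ne ‖y‖ 0 with e | e
  · simp [iv, e]
  · rw [iv, norm_smul, norm_inv, norm_pow, norm_norm]
    field_simp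

theorem iv_iv {y : X} (h : y ≠ 0) : iv (iv y) = y := by
  have := norm_ne_zero_iff.2 h
  rw [iv, iv_norm, iv, smul_smul, show (‖y‖⁻¹ ^ 2)⁻¹ * (‖y‖ ^ 2)⁻¹ = 1 by field_simp, one_smul]

theorem lb_lg (b σ : Bool) (z : X3) : lb b σ z ≠ 0 ∧ lg b (lb b σ z) = z.1 := by
  have e := Real.exp_pos z.1
  cases b <;> simp [lb, lg, sgn, ← norm_pos_iff, iv_norm, P354JK.norm_phi, e]

theorem ex_lb (b : Bool) {y : X} (h : y ≠ 0) :
    ∃ σ, ∃ z : X3, z.1 = lg b y ∧ ‖z.2‖ ≤ 1 ∧ y = lb b σ z := by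
  have k : ∀ y ≠ 0, ∃ σ, ∃ z : X3, ‖z.2‖ ≤ 1 ∧ y = Phi σ z := fun y hy => by
    obtain ⟨σ, a, c⟩ := P354QF.exists_chart hy
    rw [P354I.r2] at c
    exact ⟨σ, _, max_le (abs_le_one_iff_mul_self_le_one.2 (by nlinarith))
      (abs_le_one_iff_mul_self_le_one.2 (by nlinarith)), (P354JK.phi_psi σ hy a).symm⟩
  have : ∃ σ, ∃ z : X3, ‖z.2‖ ≤ 1 ∧ y = lb b σ z := by
    cases b
    · obtain ⟨σ, z, a, c⟩ := k (iv y) (by rw [← norm_pos_iff, iv_norm]; positivity)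
      exact ⟨σ, z, a, by rw [lb, cond_false, ← c, iv_iv h]⟩
    · exact k y h
  obtain ⟨σ, z, a, c⟩ := this
  exact ⟨σ, z, by rw [c, (lb_lg b σ z).2], a, c⟩

end Vale.Agent.P354YM
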