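import Vale.Agent.P354YM.K1
import Vale.Agent.P354TS.Trans
import Vale.Agent.P354SM.Same

/-!
The rays of the slabs, and the lid above the slice.
-/

set_option linter.unusedSectionVars false

open scoped ContDiff
open Set Filter Topology

noncomputable section

namespace Vale.Agent.P354YM

open Vale.Agent.P354n (R4)
open Vale.Agent.P354H (X3)
open Vale.Agent.P354I (X Dat)
open Vale.Agent.P354GT (Fu)
open Vale.Agent.P354XE hiding nv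
open Vale.Agent.P354XB (Win)
open Vale.Agent.P354EN (Dm)
open Vale.Agent.P354LN (Mo Ms Ca df ms_of)
open Vale.Agent.P354SM (ry ry_eq)
open Vale.Agent.P354KX

/-- The compact set on which the cones are changed. -/
def Ko.S0 (k : Ko) : Set R4 := {p | p.1 ∈ Icc 0 (k.T k.σ + k.δ2 / 2) ∧
  vv p ∈ Icc (k.R - 7 / 4 * k.w) (k.R + 39 / 16 * k.w) ∧ ‖p.2.2‖ ≤ 13 / 4}
abbrev Ko.C1 (k : Ko) (s : Bool) : Set R4 := Cb (k.T s) k.δ1 k.R k.w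
abbrev Ko.Dm (k : Ko) (s : Bool) : Set R4 := P354EN.Dm (k.T s) (k.δ s) k.R k.w
abbrev Ko.ca (k : Ko) (x : R4) : R4 → Prop := Ca k.g k.Xf x
abbrev Ko.ca' (k : Ko) (x : R4) : R4 → Prop := Ca k.g' k.X' x

namespace Ko.Is

variable {k : Ko} (h : k.Is) {s : Bool} {p x : R4} {y : X}
include h

theorem w0 : 0 < k.w := (h.sb true).1.pos.2.2
theorem T0 (s : Bool) : 0 < k.T s := (h.sb s).1.pos.1
theorem e0 : 0 < k.δ2 := h.d2.1.1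

theorem c_dm (hp : p ∈ k.C1 s) : p ∈ k.Dm s := by
  obtain ⟨⟨a, b⟩, ⟨c, d⟩, e⟩ := hp
  have := h.w0
  have := (h.sb s).2
  exact ⟨⟨by linarith, by linarith⟩, ⟨by linarith [show vv p = p.1 + p.2.1 from rfl],
    by linarith [show vv p = p.1 + p.2.1 from rfl]⟩, by linarith⟩

theorem c21 (hp : p ∈ Cb (k.T s) k.δ2 k.R k.w) : p ∈ k.C1 s :=
  ⟨⟨by linarith [hp.1.1, h.d2.1.2], by linarith [hp.1.2, h.d2.1.2]⟩, hp.2⟩

theorem b_c2 (hp : p ∈ k.B) : p ∈ Cb (k.T k.σ) k.δ2 k.R k.w := by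
  obtain ⟨a, ⟨c, d⟩, e⟩ := hp
  have := h.w0
  exact ⟨Ioo_subset_Icc_self a, ⟨by linarith [show vv p = p.1 + p.2.1 from rfl],
    by linarith [show vv p = p.1 + p.2.1 from rfl]⟩, by linarith⟩

theorem s_c2 (hp : p ∈ Sk (k.T k.σ) k.δ2 k.R k.w) : p ∈ Cb (k.T k.σ) k.δ2 k.R k.w :=
  ⟨hp.1, ⟨by linarith [hp.2.1.1, h.w0], by linarith [hp.2.1.2, h.w0]⟩, by linarith [hp.2.2]⟩

theorem n_c2 (hp : p ∈ Nb (k.T s) k.δ2 k.R k.w) : p ∈ Cb (k.T s) k.δ2 k.R k.w :=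
  ⟨⟨by linarith [hp.1.1, h.e0], hp.1.2⟩,
    ⟨by linarith [hp.2.1.1, h.w0], by linarith [hp.2.1.2, h.w0]⟩, by linarith [hp.2.2]⟩

theorem s0_b (hp : p ∈ k.S0) : p ∈ k.B := by
  obtain ⟨⟨a, b⟩, ⟨c, d⟩, e⟩ := hp
  have := h.w0
  have := h.e0
  exact ⟨⟨by linarith, by linarith⟩, ⟨by linarith [show vv p = p.1 + p.2.1 from rfl],
    by linarith [show vv p = p.1 + p.2.1 from rfl]⟩, by linarith⟩

theorem b_b' (hp : p ∈ k.B) : p ∈ Bk (k.T k.σ) k.δ' k.R k.w :=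
  ⟨⟨by linarith [hp.1.1, h.d2.2.1], by linarith [hp.1.2, h.d2.2.1]⟩, hp.2⟩

theorem fub : Fu k.U' k.B := h.fu.mono fun _ => h.b_b'

theorem nn (hp : p ∈ Cb (k.T s) k.δ2 k.R k.w) (a : 0 ≤ (k.Ψ s p).1) : 0 ≤ p.1 :=
  not_lt.1 fun j => (h.two.neg s p hp j).not_ge a

theorem cv1 (hp : p ∈ k.Dm s) : (∀ w, k.ca (k.Ψ s p) (fderiv ℝ (k.Ψ s) p w) ↔ Cn (k.U s) p w) ∧
    ∀ f F : R4 → ℝ, (∀ᶠ q in 𝓝 p, f (k.Ψ s q) = F q) →
      (Mo (Cn (k.U s) p) F p → Mo (k.ca (k.Ψ s p)) f (k.Ψ s p)) ∧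
      (Ms (Cn (k.U s) p) F p → Ms (k.ca (k.Ψ s p)) f (k.Ψ s p)) :=
  P354YS.cv.1 _ _ _ _ _ _ _ h.lor (h.sb s).1.pull (h.sb s).1.fu hp ((h.sb s).1.fut p hp)

theorem cv2 (hp : p ∈ k.B) :
    (∀ w, k.ca' (k.Ψ k.σ p) (fderiv ℝ (k.Ψ k.σ) p w) ↔ Cn k.U' p w) ∧
    ∀ f F : R4 → ℝ, (∀ᶠ q in 𝓝 p, f (k.Ψ k.σ q) = F q) →
      (Mo (Cn k.U' p) F p → Mo (k.ca' (k.Ψ k.σ p)) f (k.Ψ k.σ p)) ∧
      (Ms (Cn k.U' p) F p → Ms (k.ca' (k.Ψ k.σ p)) f (k.Ψ k.σ p)) :=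
  P354YS.cv.1 _ _ _ _ _ _ _ h.lor' h.pull h.fub hp (h.fut p hp)

theorem psi_ct (hp : p ∈ k.Dm s) : ContinuousAt (k.Ψ s) p :=
  ((h.sb s).1.pull.smooth.contDiffAt ((h.sb s).1.pull.open'.mem_nhds hp)).continuousAt

theorem s_cpt : IsCompact k.S := (P354GL.sk_compact _ _ _ _).image_of_continuousOn
  fun _ hp => (h.psi_ct (h.c_dm (h.c21 (h.s_c2 hp)))).continuousWithinAt

theorem off' (hx : x ∉ k.S) : ∀ᶠ z in 𝓝 x, k.g' z = k.g z ∧ k.X' z = k.Xf z :=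
  eventually_of_mem (h.s_cpt.isClosed.isOpen_compl.mem_nhds hx) h.off

theorem ca_off (hx : x ∉ k.S) : k.ca' x = k.ca x := by
  funext w
  simp only [Ca, (h.off x hx).1, (h.off x hx).2]

/-- The rays are future causal. -/
theorem ray {z : X3} {t : ℝ} (hp : ry z t ∈ k.Dm s) : ∃ v, k.ca (k.Ψ s (ry z t)) v ∧
    HasDerivAt (fun t => k.Ψ s (ry z t)) v t := by
  refine ⟨_, ((h.cv1 hp).1 nv).2 cn_nv, (((h.sb s).1.pull.smooth.contDiffAt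
    ((h.sb s).1.pull.open'.mem_nhds hp)).differentiableAt (by simp)).hasFDerivAt.comp_hasDerivAt t
      ?_⟩
  exact (hasDerivAt_id t).prodMk (((hasDerivAt_id t).const_sub z.1).prodMk
    (hasDerivAt_const t z.2))

omit h in
theorem ry_c (hp : p ∈ k.C1 s) {t : ℝ} (a : t ∈ Icc (-k.δ1) (k.T s + k.δ1)) :
    ry (vv p, p.2.2) t ∈ k.C1 s := ⟨a, by simpa [ry, vv] using hp.2.1, hp.2.2⟩

theorem kV (hx : x ∈ k.K (k.V - 1)) : x ∈ k.K k.V := kv_mono (by linarith) hx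

theorem kD (hx : x ∈ k.K k.V) : x ∈ k.D := h.sub.1 hx.1

theorem tau (hx : x ∈ k.K k.V) : Ms (k.ca x) k.τ x := ms_of h.lor (h.kD hx) (h.lens.tm x hx)

theorem rho_ct (hx : x ∈ k.K k.V) : ContinuousAt k.ρ x := by
  have a := h.sub.2 hx
  exact h.sl.cont.continuousAt ((xs_cont.continuousAt.eventually_ne a.1).and
    (continuousAt_const.eventually_lt (P354TS.kr_ct a.1) a.2.2))

theorem rho_J (hy : y ≠ 0) : k.ρ (k.J y) = 0 := (h.sl.zero _ (h.sl.mem y hy).1).2 ⟨y, hy, rfl⟩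

theorem rho_tm (hx : x ∈ k.K k.V) (a : k.ρ x = 0) : Tm k.g k.Xf k.ρ x := by
  obtain ⟨y, hy, rfl⟩ := (h.sl.zero x (h.sub.2 hx)).1 a
  exact (h.sl.mem y hy).2

/-- Curves cross the levels of functions which are time functions on the level. -/
theorem crs {γ : ℝ → R4} {f : R4 → ℝ} {a b c : ℝ}
    (hγ : ∀ t ∈ Icc a b, γ t ∈ k.K k.V ∧ ∃ v, k.ca (γ t) v ∧ HasDerivAt γ v t)
    (hf : ∀ x ∈ k.K k.V, ContinuousAt f x ∧ (f x = c → Ms (k.ca x) f x)) :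
    ContinuousOn (fun t => f (γ t)) (Icc a b) ∧
      ∀ t ∈ Icc a b, f (γ t) = c → ∃ h' > 0, HasDerivAt (fun t => f (γ t)) h' t :=
  ⟨fun t ht => let ⟨i, _, _, j⟩ := hγ t ht
    ((hf _ i).1.comp j.continuousAt).continuousWithinAt, fun t ht e =>
    let ⟨i, _, l, j⟩ := hγ t ht
    ⟨_, ((hf _ i).2 e).2 _ l, der ((hf _ i).2 e).1 j⟩⟩

theorem rho_lev : ∀ x ∈ k.K k.V, ContinuousAt k.ρ x ∧ (k.ρ x = 0 → Ms (k.ca x) k.ρ x) :=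
  fun _ hx => ⟨h.rho_ct hx, fun a => ms_of h.lor (h.kD hx) (h.rho_tm hx a)⟩

theorem rays (hp : p ∈ k.C1 s) {a b : ℝ} (ha : 0 ≤ a) (hb : b ≤ k.T s + k.δ1) : ∀ t ∈ Icc a b,
    k.Ψ s (ry (vv p, p.2.2) t) ∈ k.K k.V ∧ ∃ v, k.ca (k.Ψ s (ry (vv p, p.2.2) t)) v ∧
      HasDerivAt (fun t => k.Ψ s (ry (vv p, p.2.2) t)) v t := fun t ht => by
  have m := ry_c hp (t := t) ⟨by linarith [ht.1, h.e0, h.d2.1.2], ht.2.trans hb⟩
  exact ⟨h.kV (h.cb s _ m (ha.trans ht.1)), h.ray (h.c_dm m)⟩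

theorem win (hp : p ∈ k.Dm s) : ((vv p, p.2.2) : X3) ∈ Win k.R k.w 6 := hp.2

theorem top' (hp : p ∈ k.Dm s) :
    k.Ψ s (ry (vv p, p.2.2) (k.T s)) = k.J (lb k.b s (vv p, p.2.2)) := (h.sb s).1.top _ (h.win hp)

/-- The sign of rho along the rays. -/
theorem sign (hp : p ∈ k.C1 s) (a : 0 ≤ p.1) :
    (p.1 < k.T s → k.ρ (k.Ψ s p) < 0) ∧ (k.T s < p.1 → 0 < k.ρ (k.Ψ s p)) := by
  have e : k.ρ (k.Ψ s (ry (vv p, p.2.2) (k.T s))) = 0 := by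
    rw [h.top' (h.c_dm hp), h.rho_J (lb_lg _ _ _).1]
  refine ⟨fun j => ?_, fun j => ?_⟩
  · obtain ⟨c1, c2⟩ := h.crs (h.rays hp (b := k.T s) a (by linarith [h.e0, h.d2.1.2]))
      h.rho_lev
    simpa only [ry_eq] using dn c1 c2 e.le p.1 ⟨le_rfl, j⟩
  · obtain ⟨c1, c2⟩ := h.crs (h.rays hp (h.T0 s).le hp.1.2) h.rho_lev
    simpa only [ry_eq] using up c1 c2 e.ge p.1 ⟨j, le_rfl⟩

theorem onT (hp : p ∈ k.C1 s) (a : 0 ≤ p.1) (e : k.ρ (k.Ψ s p) = 0) : p.1 = k.T s :=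
  le_antisymm (not_lt.1 fun j => ((h.sign hp a).2 j).ne' e)
    (not_lt.1 fun j => ((h.sign hp a).1 j).ne e)

theorem onJ (hp : p ∈ k.C1 s) (a : 0 ≤ p.1) (hy : y ≠ 0) (e : k.Ψ s p = k.J y) :
    p.1 = k.T s ∧ y = lb k.b s (vv p, p.2.2) := by
  have e1 := h.onT hp a (e ▸ h.rho_J hy)
  have e2 := h.top' (h.c_dm hp)
  rw [← e1, ry_eq, e] at e2
  exact ⟨e1, congrArg Subtype.val (h.sl.emb.injective (a₁ := ⟨y, hy⟩)
    (a₂ := ⟨_, (lb_lg _ _ _).1⟩) e2)⟩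

/-- A time function which is constant on a slice of the chart. -/
theorem slc {f : R4 → ℝ} {c : ℝ} (hp : p ∈ k.B) (e : ∀ᶠ z in 𝓝 p.2, f (k.Ψ k.σ (p.1, z)) = c)
    (a : Ms (k.ca (k.Ψ k.σ p)) f (k.Ψ k.σ p)) : Ms (k.ca' (k.Ψ k.σ p)) f (k.Ψ k.σ p) := by
  have m := h.c_dm (h.c21 (h.b_c2 hp))
  exact ((h.cv2 hp).2 f _ (.of_forall fun _ => rfl)).2
    (slice (h.sb _).1.pull m h.fub hp (((h.cv1 m).1 nv).2 cn_nv) e a)

theorem ev_dm (hp : p ∈ k.Dm s) : ∀ᶠ z in 𝓝 p.2, (p.1, z) ∈ k.Dm s :=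
  (continuousAt_const.prodMk continuousAt_id).eventually ((h.sb s).1.pull.open'.mem_nhds hp)

theorem s0K (hp : p ∈ k.S0) : k.Ψ k.σ p ∈ k.K (k.V - 1) :=
  h.cb _ p (h.c21 (h.b_c2 (h.s0_b hp))) hp.1.1

theorem s0_cpt : IsCompact (k.Ψ k.σ '' k.S0) := (P354YS.box_cpt _ _ _ _ _).image_of_continuousOn
  fun _ hp => (h.psi_ct (h.c_dm (h.c21 (h.b_c2 (h.s0_b hp))))).continuousWithinAt

/-- The lid. -/
theorem lid : ∃ η : R4 → ℝ, (∀ x, 0 ≤ η x ∧ (k.ρ x ≤ 0 → η x = 0)) ∧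
    Lens k.W k.g k.Xf (fun x => k.τ x + η x) k.V k.d ∧
    ∀ x ∈ KV k.W (fun x => k.τ x + η x) k.V, Mo (k.ca x) η x ∧
      (x ∈ k.Ψ k.σ '' k.S0 → Mo (k.ca' x) η x) ∧ ∀ s, ∀ p ∈ k.C1 s, x = k.Ψ s p →
        p.1 < k.T s + k.δ2 / 2 ∧ ∀ t ∈ Icc 0 p.1,
          k.Ψ s (t, vv p - t, p.2.2) ∈ KV k.W (fun x => k.τ x + η x) k.V := by
  have rc : ContinuousOn k.ρ (k.K k.V) := fun _ hx => (h.rho_ct hx).continuousWithinAt
  obtain ⟨e1, p1, a1⟩ := band h.lens.cpt rc fun x hx a =>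
    P354XJ.tm_ev h.lor (h.kD hx) (h.rho_tm hx a)
  obtain ⟨e2, p2, a2⟩ := band (Q := Tm k.g' k.X' k.ρ) h.s0_cpt
    (rc.mono (by rintro _ ⟨p, hp, rfl⟩; exact h.kV (h.s0K hp))) (by
      rintro _ ⟨p, hp, rfl⟩ a
      have m := h.s0_b hp
      have m1 := h.c21 (h.b_c2 m)
      refine P354XJ.tm_ev h.lor' (h.pull.maps m) (Ms.tm h.lor' (h.pull.maps m) (h.slc (c := 0) m
        ((h.ev_dm (h.c_dm m1)).mono fun z hz => ?_) ((h.rho_lev _ (h.kV (h.s0K hp))).2 a)))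
      rw [h.onT m1 hp.1.1 a] at hz ⊢
      rw [← ry_eq (_, z), h.top' hz, h.rho_J (lb_lg _ _ _).1])
  have a3 : ∀ s, ∃ e > 0, ∀ p ∈ k.C1 s, k.T s + k.δ2 / 2 ≤ p.1 → e ≤ k.ρ (k.Ψ s p) := fun s => by
    have m : ∀ p ∈ k.C1 s ∩ {p | k.T s + k.δ2 / 2 ≤ p.1}, 0 ≤ p.1 ∧ k.T s < p.1 := fun p hp =>
      ⟨by linarith [show _ ≤ p.1 from hp.2, h.T0 s, h.e0],
        by linarith [show _ ≤ p.1 from hp.2, h.e0]⟩
    obtain ⟨e, e0, he⟩ := ((P354YS.box_cpt _ _ _ _ _).inter_right (isClosed_le continuous_const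
      continuous_fst)).exists_forall_le' (fun p hp => ((h.rho_ct (h.kV (h.cb s p hp.1
        (m p hp).1))).comp (h.psi_ct (h.c_dm hp.1))).continuousWithinAt)
      fun p hp => (h.sign hp.1 (m p hp).1).2 (m p hp).2
    exact ⟨e, e0, fun p a b => he p ⟨a, b⟩⟩
  choose e3 p3 a3 using a3
  obtain ⟨ε, ε0, b1, b2, b3⟩ : ∃ ε > 0, ε ≤ e1 ∧ ε ≤ e2 ∧ ∀ s, ε ≤ e3 s :=
    ⟨min (min e1 e2) (min (e3 true) (e3 false)), lt_min (lt_min p1 p2) (lt_min (p3 _) (p3 _)),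
      by simp, by simp, fun s => by cases s <;> simp⟩
  obtain ⟨m, hm⟩ := h.lens.cpt.bddBelow_image fun x hx => (h.tau hx).1.continuousAt.continuousWithinAt
  obtain ⟨c, c0, hc⟩ : ∃ c > 0, k.V - m < c := ⟨|k.V - m| + 1, by positivity,
    (le_abs_self _).trans_lt (lt_add_one _)⟩
  have n : ∀ x, 0 ≤ c * stp 0 ε (k.ρ x) := fun x => mul_nonneg c0.le stp_nn
  have sub : ∀ x ∈ KV k.W (fun x => k.τ x + c * stp 0 ε (k.ρ x)) k.V,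
      x ∈ k.K k.V ∧ k.ρ x < ε := fun x hx => by
    have j : k.τ x + c * stp 0 ε (k.ρ x) ≤ k.V := hx.2.2
    have i : x ∈ k.K k.V := ⟨hx.1, hx.2.1, by linarith [n x]⟩
    exact ⟨i, lt_of_stp ε0 (lt_of_mul_lt_mul_left (by linarith [hm ⟨x, i, rfl⟩]) c0.le)⟩
  have mo : ∀ x ∈ k.K k.V, k.ρ x ≤ ε → Mo (k.ca x) (fun x => c * stp 0 ε (k.ρ x)) x :=
    fun x hx a => mo_mul (mo_stp ε0 (h.rho_ct hx) fun j => (ms_of h.lor (h.kD hx)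
      (a1 x hx (by rw [abs_of_nonneg j]; linarith))).mo) c0.le
  refine ⟨fun x => c * stp 0 ε (k.ρ x), fun x => ⟨n x, fun a => by simp only [stp_zero ε0 a, mul_zero]⟩,
    sublens (K := k.K k.V ∩ k.ρ ⁻¹' Iic ε) h.lens.lor h.lens.ne h.lens.pd
      (h.lens.cpt.of_isClosed_subset (rc.preimage_isClosed_of_isClosed h.lens.cpt.isClosed
        isClosed_Iic) inter_subset_left)
      (fun x hx => ⟨hx.1.1, hx.1.2.1, (h.tau hx.1).add (mo x hx.1 hx.2)⟩)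
      (fun x hx => ⟨(sub x hx).1, (sub x hx).2.le⟩) fun y hy => h.lens.sig y hy.1,
    fun x hx => ⟨mo x (sub x hx).1 (sub x hx).2.le, fun j => mo_mul (mo_stp ε0
      (h.rho_ct (sub x hx).1) fun i => ?_) c0.le, ?_⟩⟩
  · obtain ⟨p, hp, rfl⟩ := j
    exact (ms_of h.lor' (h.pull.maps (h.s0_b hp)) (a2 _ ⟨p, hp, rfl⟩
      (by rw [abs_of_nonneg i]; linarith [(sub _ hx).2]))).mo
  rintro s p hp rfl
  refine ⟨not_le.1 fun j => by linarith [a3 s p hp j, b3 s, (sub _ hx).2], fun t ht => ?_⟩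
  have r := h.rays hp le_rfl hp.1.2
  obtain ⟨c1, c2⟩ := h.crs r (f := fun x => k.τ x + c * stp 0 ε (k.ρ x)) (c := k.V) fun x hx =>
    ⟨(h.tau hx).1.continuousAt.add (continuousAt_const.mul
      (stp_cd.continuous.continuousAt.comp (h.rho_ct hx))),
      fun e => (h.tau hx).add (mo x hx (sub x ⟨hx.1, hx.2.1, e.le⟩).2.le)⟩
  exact ⟨(r t ht).1.1, (r t ht).1.2.1, dn' c1 c2 (by simpa only [ry_eq] using hx.2.2) t ht⟩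

end Ko.Is

end Vale.Agent.P354YM
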