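import Vale.Agent.P354YM.K2
import Vale.Agent.P354LN.Vh

/-!
The lens of the kicked metric.
-/

set_option linter.unusedSectionVars false

open scoped ContDiff
open Set Filter Topology Function

noncomputable section

namespace Vale.Agent.P354YM

open Vale.Agent.P354n (R4)
open Vale.Agent.P354H (X3)
open Vale.Agent.P354C (met)
open Vale.Agent.P354I (X Dat)
open Vale.Agent.P354XE hiding nv
open Vale.Agent.P354XU (IndAt)
open Vale.Agent.P354LN (Mo Ms Ca df ms_of)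
open Vale.Agent.P354KX

abbrev Ko.K1 (k : Ko) (η : R4 → ℝ) : Set R4 := KV k.W (fun x => k.τ x + η x) k.V

/-- The lid η and the optical function vh. -/
structure Ko.L (k : Ko) (η vh : R4 → ℝ) : Prop where
  h : k.Is
  nn : ∀ x, 0 ≤ η x ∧ (k.ρ x ≤ 0 → η x = 0)
  lens : Lens k.W k.g k.Xf (fun x => k.τ x + η x) k.V k.d
  mo : ∀ x ∈ k.K1 η, Mo (k.ca x) η x ∧ (x ∈ k.Ψ k.σ '' k.S0 → Mo (k.ca' x) η x) ∧
    ∀ s, ∀ p ∈ k.C1 s, x = k.Ψ s p → p.1 < k.T s + k.δ2 / 2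
  u1 : ∀ y, pt 0 y ∈ k.K1 η → vh (pt 0 y) = k.f y
  u2 : ∀ s (p : R4), p.1 ∈ Ico 0 (k.T s + k.δ2) → vv p ∈ Ioo (k.R - 23 / 8 * k.w)
    (k.R + 31 / 8 * k.w) → ‖p.2.2‖ < 5 → ∀ᶠ q in 𝓝 p, vh (k.Ψ s q) = cl k.R k.w (vv q)
  u3 : ∀ x ∈ k.K1 η, (∀ s, x ∉ k.Ψ s '' Nb (k.T s) k.δ2 k.R k.w) →
    (∀ᶠ z in 𝓝 x, vh z = (k.R - 11 / 4 * k.w)) ∨ ∀ᶠ z in 𝓝 x, vh z = (k.R + 15 / 4 * k.w)

theorem Ko.Is.exL {k : Ko} (h : k.Is) : ∃ η vh, k.L η vh := by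
  obtain ⟨η, a1, a2, a3⟩ := h.lid
  obtain ⟨vh, b⟩ := P354LN.vh _ _ _ _ _ _ _ _ _ _ _ _ _ _ _ _ _ _ _ h.lor h.sb h.d2.1 h.two h.sub.1
    a2 h.f1 h.f2 h.f3 fun s p hp hx => ((a3 _ hx).2.2 s p hp rfl).imp_left fun j => by
      linarith [h.e0]
  exact ⟨η, vh, h, a1, a2, fun x hx => ⟨(a3 x hx).1, (a3 x hx).2.1, fun s p hp e =>
    ((a3 x hx).2.2 s p hp e).1⟩, b.1, b.2.1, b.2.2⟩

theorem vv_ct : Continuous vv := by unfold vv; fun_prop

theorem cl_eq {R w v : ℝ} (a : R - 11 / 4 * w ≤ v) (b : v ≤ R + 15 / 4 * w) : cl R w v = v := by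
  rw [cl, min_eq_left b, max_eq_right a]

/-- The functions which are constant below v0. -/
structure Ko.Fn (k : Ko) (φ : ℝ → ℝ) : Prop where
  cd : ContDiff ℝ 1 φ
  mono : Monotone φ
  lo : ∀ v ≤ (k.R - 11 / 4 * k.w), φ v = φ (k.R - 11 / 4 * k.w)

def Ko.G (k : Ko) (v : ℝ) : ℝ := stp (k.R - 11 / 4 * k.w) (k.R - 2 * k.w) v * (v - (k.R - 11 / 4 * k.w))
def Ko.H (k : Ko) : ℝ → ℝ := stp (k.R + 9 / 4 * k.w) (k.R + 19 / 8 * k.w)

namespace Ko.L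

variable {k : Ko} {η vh : R4 → ℝ} (l : k.L η vh) {s : Bool} {p x : R4} {y : X} {φ : ℝ → ℝ}
include l

theorem stp_fn {a b : ℝ} (h : (k.R - 11 / 4 * k.w) ≤ a) (h' : a < b) : k.Fn (stp a b) :=
  ⟨stp_cd, stp_mono h', fun _ j => (stp_zero h' (j.trans h)).trans (stp_zero h' h).symm⟩

theorem G_nn (v : ℝ) : 0 ≤ k.G v := (le_total v (k.R - 11 / 4 * k.w)).elim
  (fun j => by rw [Ko.G, stp_zero (by linarith [l.h.w0]) j, zero_mul])
  fun j => mul_nonneg stp_nn (sub_nonneg.2 j)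

theorem G_fn : k.Fn k.G := by
  have a : (k.R - 11 / 4 * k.w) < k.R - 2 * k.w := by linarith [l.h.w0]
  have z : ∀ v ≤ (k.R - 11 / 4 * k.w), k.G v = 0 := fun v j => by rw [Ko.G, stp_zero a j, zero_mul]
  refine ⟨stp_cd.mul (contDiff_id.sub contDiff_const), fun u v j => (le_total u (k.R - 11 / 4 * k.w)).elim
    (fun i => z u i ▸ l.G_nn v) fun i => mul_le_mul (stp_mono a j) (sub_le_sub_right j _)
      (sub_nonneg.2 i) stp_nn, fun v j => (z v j).trans (z _ le_rfl).symm⟩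

theorem k1 (hx : x ∈ k.K1 η) : x ∈ k.K k.V :=
  ⟨hx.1, hx.2.1, by linarith [(l.nn x).1, show k.τ x + η x ≤ k.V from hx.2.2]⟩

theorem k1' (hx : x ∈ k.K (k.V - 1)) (a : k.ρ x ≤ 0) : x ∈ k.K1 η :=
  ⟨hx.1, hx.2.1, by linarith [(l.nn x).2 a, show k.τ x ≤ k.V - 1 from hx.2.2]⟩

theorem mo_vh (f : k.Fn φ) (hx : x ∈ k.K1 η) (hi : vh x < (k.R + 15 / 4 * k.w) ∨ ∀ v ≥ (k.R + 15 / 4 * k.w), φ v = φ (k.R + 15 / 4 * k.w)) :
    Mo (k.ca x) (fun z => φ (vh z)) x := by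
  by_cases c : ∀ s, x ∉ k.Ψ s '' Nb (k.T s) k.δ2 k.R k.w
  · exact (l.u3 x hx c).elim (fun j => Mo.ev _ (j.mono fun _ => congrArg φ))
      fun j => Mo.ev _ (j.mono fun _ => congrArg φ)
  push Not at c
  obtain ⟨s, p, hp, rfl⟩ := c
  have w := l.h.w0
  have m := l.h.c21 (l.h.n_c2 hp)
  have u := l.u2 s p ⟨hp.1.1, by linarith [(l.mo _ hx).2.2 s p m rfl, l.h.e0]⟩
    ⟨by linarith [hp.2.1.1], by linarith [hp.2.1.2]⟩ (by linarith [hp.2.2])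
  have c1 : ∀ v ≤ (k.R + 15 / 4 * k.w), φ (cl k.R k.w v) = φ v := fun v j => (le_total v (k.R - 11 / 4 * k.w)).elim
    (fun i => by rw [cl, min_eq_left j, max_eq_left i, f.lo v i]) fun i => by rw [cl_eq i j]
  refine (((l.h.cv1 (l.h.c_dm m)).2 _ (fun q => φ (vv q)) ?_).1
    ((mo_vv (l.h.sb s).1.fu (l.h.c_dm m)).comp f.cd f.mono))
  rcases hi with j | j
  · rw [u.self_of_nhds, cl_eq hp.2.1.1 hp.2.1.2] at j
    filter_upwards [u, vv_ct.continuousAt.eventually_lt continuousAt_const j] with q a b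
    rw [a, c1 _ b.le]
  · refine u.mono fun q a => a ▸ (le_total (vv q) (k.R + 15 / 4 * k.w)).elim (c1 _) fun i => ?_
    rw [cl, min_eq_right i, max_eq_right (by linarith), j _ i]

theorem loc (hp : p ∈ k.B) (a : 0 ≤ p.1) : ∀ᶠ q in 𝓝 p, q ∈ k.B ∧ vh (k.Ψ k.σ q) = vv q := by
  have w := l.h.w0
  have b : ∀ q ∈ k.B, k.R - 2 * k.w < vv q ∧ vv q < k.R + 5 / 2 * k.w := fun q j => j.2.1
  filter_upwards [l.h.pull.open'.mem_nhds hp, l.u2 _ p ⟨a, hp.1.2⟩ ⟨by linarith [(b p hp).1],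
    by linarith [(b p hp).2]⟩ (by linarith [hp.2.2])] with q i j
  exact ⟨i, by rw [j, cl_eq (by linarith [(b q i).1]) (by linarith [(b q i).2])]⟩

theorem vS (hx : k.Ψ k.σ p ∈ k.K1 η) (hp : p ∈ Sk (k.T k.σ) k.δ2 k.R k.w) :
    0 ≤ p.1 ∧ p.1 < k.T k.σ + k.δ2 / 2 ∧ vh (k.Ψ k.σ p) = vv p := by
  have w := l.h.w0
  have a := l.h.nn (l.h.s_c2 hp) hx.2.1
  have b := (l.mo _ hx).2.2 _ p (l.h.c21 (l.h.s_c2 hp)) rfl
  exact ⟨a, b, by rw [(l.u2 _ p ⟨a, by linarith [l.h.e0]⟩ ⟨by linarith [hp.2.1.1],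
    by linarith [hp.2.1.2]⟩ (by linarith [hp.2.2])).self_of_nhds,
    cl_eq (by linarith [hp.2.1.1]) (by linarith [hp.2.1.2])]⟩

/-- The position of the points below the cut. -/
theorem alt (hx : x ∈ k.K1 η) (hv : vh x < k.R + 19 / 8 * k.w) :
    (x ∉ k.S ∧ x ∉ k.Ψ k.σ '' k.B) ∨ ∃ p ∈ k.B, 0 ≤ p.1 ∧ vv p = vh x ∧ x = k.Ψ k.σ p := by
  by_cases c : x ∈ k.Ψ k.σ '' k.B
  · obtain ⟨p, hp, rfl⟩ := c
    have a := l.h.nn (l.h.b_c2 hp) hx.2.1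
    exact .inr ⟨p, hp, a, (l.loc hp a).self_of_nhds.2.symm, rfl⟩
  refine .inl ⟨?_, c⟩
  rintro ⟨p, hp, rfl⟩
  obtain ⟨a, b, e⟩ := l.vS hx hp
  have w := l.h.w0
  have e0 := l.h.e0
  exact c ⟨p, ⟨⟨by linarith, by linarith⟩, ⟨by linarith [hp.2.1.1, show vv p = p.1 + p.2.1 from rfl],
    by linarith [show vv p = p.1 + p.2.1 from rfl]⟩, by linarith [hp.2.2]⟩, rfl⟩

theorem cone (hx : x ∈ k.K1 η) (hv : vh x < k.R + 19 / 8 * k.w) :
    k.ca' x = k.ca x ∨ x ∈ k.Ψ k.σ '' k.S0 := by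
  obtain j | ⟨p, hp, a, e, rfl⟩ := l.alt hx hv
  · exact .inl (l.h.ca_off j.1)
  have w := l.h.w0
  have m := l.h.c21 (l.h.b_c2 hp)
  by_cases c : vv p ≤ k.R - 3 / 2 * k.w ∨ 3 ≤ ‖p.2.2‖
  · refine .inl (funext fun u => ?_)
    obtain ⟨u, rfl⟩ := (LinearMap.injective_iff_surjective (f := (fderiv ℝ (k.Ψ k.σ) p :
      R4 →ₗ[ℝ] R4))).1 (l.h.pull.inj p hp) u
    refine propext (((l.h.cv2 hp).1 u).trans (Iff.trans ?_ ((l.h.cv1 (l.h.c_dm m)).1 u).symm))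
    simp only [Cn, met, l.h.eq p (l.h.b_b' hp) c]
  · push Not at c
    exact .inr ⟨p, ⟨⟨a, ((l.mo _ hx).2.2 _ p m rfl).le⟩, ⟨by linarith [c.1], by linarith⟩,
      by linarith [c.2]⟩, rfl⟩

theorem mo' (f : k.Fn φ) (hx : x ∈ k.K1 η) (hv : vh x < k.R + 19 / 8 * k.w) :
    Mo (k.ca' x) (fun z => φ (vh z)) x := by
  obtain j | ⟨p, hp, a, -, rfl⟩ := l.alt hx hv
  · exact l.h.ca_off j.1 ▸ l.mo_vh f hx (.inl (by linarith [l.h.w0]))
  · exact ((l.h.cv2 hp).2 _ (fun q => φ (vv q)) ((l.loc hp a).mono fun q j => congrArg φ j.2)).1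
      ((mo_vv l.h.fub hp).comp f.cd f.mono)

theorem J1 (hy : y ∈ k.Z) : k.J y ∈ k.K1 η := l.k1' (l.h.top hy) (l.h.rho_J hy.1).le

omit l in
theorem zb (hy : y ∈ k.Z) : lg k.b y ≤ k.R + 9 / 4 * k.w := by simpa [sd] using hy.2 k.b

theorem vJ1 (hy : y ≠ 0) (a : k.R - 23 / 8 * k.w < lg k.b y) (b : lg k.b y ≤ (k.R + 15 / 4 * k.w)) :
    vh (k.J y) = cl k.R k.w (lg k.b y) := by
  obtain ⟨s, z, z1, z2, rfl⟩ := ex_lb k.b hy
  have w := l.h.w0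
  have e : vv (P354YX.pT (k.T s) z) = z.1 := by simp [vv, P354YX.pT]
  rw [← z1] at a b ⊢
  rw [← (l.h.sb s).1.top z ⟨⟨by linarith, by linarith⟩, by linarith⟩, ← e]
  exact (l.u2 s _ ⟨(l.h.T0 s).le, lt_add_of_pos_right _ l.h.e0⟩ ⟨by linarith, by linarith⟩
    (z2.trans_lt (by norm_num))).self_of_nhds

theorem vJ (hy : y ∈ k.Z) : vh (k.J y) ≤ max (k.R - 11 / 4 * k.w) (lg k.b y) := by
  have w := l.h.w0
  rcases lt_or_ge (k.R - 23 / 8 * k.w) (lg k.b y) with c | c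
  · rw [l.vJ1 hy.1 c (by linarith [zb hy])]
    exact max_le_max le_rfl (min_le_left _ _)
  set b := k.R - 45 / 16 * k.w - lg k.b y with hb
  have m : ∀ t ∈ Icc 0 b, dl k.b t y ∈ k.Z ∧ lg k.b (dl k.b t y) < (k.R - 11 / 4 * k.w) := fun t ht => by
    have e := lg_dl (σ := k.b) (x := t) hy.1
    refine ⟨⟨dl_ne hy.1, fun s => ?_⟩, by linarith [ht.2]⟩
    rcases eq_or_ne s k.b with rfl | j
    · rw [sd, if_pos rfl]
      linarith [ht.2]
    · obtain rfl : s = !k.b := Bool.eq_not_of_ne j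
      linarith [hy.2 (!k.b), lg_not k.b y, lg_not k.b (dl k.b t y), ht.1]
  have u := fun t ht => l.u3 _ (l.J1 (m t ht).1) fun s ⟨p, hp, e⟩ => by
    have := (l.h.onJ (l.h.c21 (l.h.n_c2 hp)) hp.1.1 (m t ht).1.1 e).2
    linarith [(m t ht).2, (this ▸ (lb_lg _ _ _).2 : lg k.b (dl k.b t y) = vv p), hp.2.1.1]
  have e := isPreconnected_Icc.constant_of_mapsTo (f := fun t => vh (k.J (dl k.b t y)))
    (toFinite {(k.R - 11 / 4 * k.w), (k.R + 15 / 4 * k.w)}).isDiscrete (fun t ht => by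
      have c1 : ContinuousAt vh (k.J (dl k.b t y)) :=
        (u t ht).elim (fun j => EventuallyEq.continuousAt j) fun j => EventuallyEq.continuousAt j
      exact (c1.comp (f := fun t => k.J (dl k.b t y)) ((l.h.sl.sm.continuousOn.continuousAt
        (isOpen_compl_singleton.mem_nhds (m t ht).1.1)).comp (f := fun t => dl k.b t y)
          (by unfold dl; fun_prop))).continuousWithinAt)
    (fun t ht => (u t ht).imp (fun j => j.self_of_nhds) fun j => j.self_of_nhds)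
    (left_mem_Icc.2 (show 0 ≤ b by linarith)) (right_mem_Icc.2 (by linarith))
  have e1 := lg_dl (σ := k.b) (x := b) hy.1
  simp only [show dl k.b 0 y = y by simp [dl]] at e
  rw [e, l.vJ1 (dl_ne hy.1) (by linarith) (by linarith), cl, min_eq_left (by linarith),
    max_eq_left (by linarith)]
  exact le_max_left _ _

/-- The points of A are before the slabs. -/
theorem low (hx : x ∈ k.A) : k.ρ x ≤ 0 ∧ vh x ≤ k.R - 5 / 2 * k.w := by
  have w := l.h.w0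
  have a : k.R - 5 / 2 * k.w < k.R - 2 * k.w := by linarith
  obtain ⟨-, y, hy, c⟩ := l.h.low x hx
  have hz : y ∈ k.Z := ⟨hy.1, fun s => (hy.2 s).trans (by unfold sd; split_ifs <;> linarith)⟩
  clear hx
  induction c using Relation.ReflTransGen.head_induction_on with
  | refl => exact ⟨(l.h.rho_J hy.1).le, (l.vJ hz).trans (max_le (by linarith)
      (by linarith [show lg k.b y ≤ k.R - 3 * k.w by simpa [sd] using hy.2 k.b]))⟩
  | head j _ ih =>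
    obtain ⟨γ, rfl, rfl, j⟩ := j
    have r : ∀ t ∈ Icc (0 : ℝ) 1, γ t ∈ k.K k.V ∧ ∃ v, k.ca (γ t) v ∧ HasDerivAt γ v t :=
      fun t ht => by
        obtain ⟨j1, j2, j3⟩ := j t ht
        have m := l.h.kV (l.h.low _ j1).1
        refine ⟨m, _, ⟨fun e => j3.1.ne ?_, j3.1.le, j3.2.le⟩, j2.hasDerivAt⟩
        rw [e]
        exact (l.h.lor.met.lin _ (l.h.kD m) _).map_zero
    obtain ⟨c1, c2⟩ := l.h.crs r l.h.rho_lev
    have n := dn' c1 c2 ih.1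
    have d : ∀ t ∈ Icc (0 : ℝ) 1, ∃ u ≥ 0, HasDerivAt
        (fun t => stp (k.R - 5 / 2 * k.w) (k.R - 2 * k.w) (vh (γ t))) u t := fun t ht => by
      obtain ⟨-, v, v1, v2⟩ := r t ht
      have := l.mo_vh (l.stp_fn (by linarith) a) (l.k1' (l.h.low _ (j t ht).1).1 (n t ht))
        (.inr fun v i => (stp_one a (by linarith)).trans (stp_one a (by linarith)).symm)
      exact ⟨_, this.2 v v1, der this.1 v2⟩
    choose! u u1 u2 using d
    have := monotoneOn_of_deriv_nonneg (convex_Icc 0 1)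
      (fun t ht => (u2 t ht).continuousAt.continuousWithinAt)
      (fun t ht => (u2 t (interior_subset ht)).differentiableAt.differentiableWithinAt)
      (fun t ht => (u2 t (interior_subset ht)).deriv ▸ u1 t (interior_subset ht))
      (left_mem_Icc.2 zero_le_one) (right_mem_Icc.2 zero_le_one) zero_le_one
    exact ⟨n 0 (left_mem_Icc.2 zero_le_one), le_of_stp a (this.trans (stp_zero a ih.2).le)⟩

/-- The initial slice. -/
theorem sig (hx : pt 0 y ∈ k.K1 η) (hv : vh (pt 0 y) < k.R + 19 / 8 * k.w)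
    (hw : pt 0 y ∈ k.W') : Tm k.g' k.X' (fun p => p.1) (pt 0 y) ∧
      ∀ᶠ z in 𝓝 y, IndAt k.g' k.X' (pt 0) k.d' z := by
  obtain ⟨a1, a2⟩ := l.lens.sig y hx
  have y0 : y ≠ 0 := xs_pt 0 y ▸ l.lens.ne _ hx.1
  have z0 : ∀ p ∈ k.B, (k.Ψ k.σ p).1 = 0 → p = (0, p.2) := fun p hp e => Prod.ext (le_antisymm
    (not_lt.1 fun j => ((l.h.sb _).1.up p (l.h.c_dm (l.h.c21 (l.h.b_c2 hp))) j).ne' e)
    (l.h.nn (l.h.b_c2 hp) e.ge)) rfl
  have bt : ∀ z, (0, z) ∈ k.Dm k.σ → k.Ψ k.σ (0, z) = pt 0 (k.j k.σ z) := fun z hz =>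
    (l.h.sb _).1.bot z ⟨by simpa using hz.2.1, hz.2.2⟩
  have m := ms_of l.h.lor (l.h.kD (l.k1 hx)) a1
  refine ⟨Ms.tm l.h.lor' hw ?_, ?_⟩
  · obtain j | ⟨p, hp, -, -, e⟩ := l.alt hx hv
    · exact (congrArg (Ms · _ _) (l.h.ca_off j.1)).mpr m
    · have e0 := z0 p hp (e ▸ rfl)
      rw [e] at m ⊢
      refine l.h.slc (c := 0) hp ((l.h.ev_dm (l.h.c_dm (l.h.c21 (l.h.b_c2 hp)))).mono
        fun z hz => ?_) m
      rw [show p.1 = 0 from congrArg Prod.fst e0] at hz ⊢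
      rw [bt z hz]
      rfl
  have c : Continuous (pt 0) := by unfold pt; fun_prop
  filter_upwards [a2, c.continuousAt.eventually (l.h.lor'.isOpen.mem_nhds hw),
    isOpen_compl_singleton.mem_nhds y0, (l.h.f1.continuousAt (isOpen_compl_singleton.mem_nhds
      y0)).eventually_lt_const (show k.f y < k.R + 5 / 2 * k.w by
        linarith [l.u1 y hx, l.h.w0])] with z b1 b2 b3 b4
  obtain ⟨p, hp, e⟩ | j := b2
  · have e0 := z0 p hp (e ▸ rfl)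
    rw [e0] at hp e
    rw [bt _ (l.h.c_dm (l.h.c21 (l.h.b_c2 hp)))] at e
    rw [← xs_pt 0 z, ← e, xs_pt]
    exact l.h.i1 _ hp
  · exact indAt_met b1 (l.h.off' j.2) (l.h.i2 z b3 b4.le j.2)

end Ko.L

end Vale.Agent.P354YM
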