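import Vale.Agent.P354YM.K3

/-!
The time function of the kicked metric.
-/

open scoped ContDiff
open Set Filter Topology Function

noncomputable section

namespace Vale.Agent.P354YM

open Vale.Agent.P354n (R4)
open Vale.Agent.P354I (X Dat)
open Vale.Agent.P354XE hiding nv
open Vale.Agent.P354LN (Mo Ms Ca df ms_of)
open Vale.Agent.P354KX

/-- A function which is a time function where the cones are changed. -/
theorem Ko.L.exf {k : Ko} {η vh : R4 → ℝ} (l : k.L η vh) : ∃ f : R4 → ℝ,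
    (∀ x, 0 ≤ f x ∧ f x ≤ k.G (vh x) + 2) ∧ (∀ x ∈ k.Ψ k.σ '' k.S0, Ms (k.ca' x) f x) ∧
      ∀ x ∈ k.K1 η, vh x < k.R + 19 / 8 * k.w → Mo (k.ca' x) f x := by
  classical
  have h := l.h
  have w := h.w0
  obtain ⟨φ, -, z, t⟩ := P354YS.time _ _ _ _ _ _ w h.d2.2.1 h.fu
  set u : R4 → ℝ := fun x => if x ∈ k.Ψ k.σ '' k.B then φ (invFunOn (k.Ψ k.σ) k.B x) else 0
  have u1 : ∀ q ∈ k.B, u (k.Ψ k.σ q) = φ q := fun q hq => by
    simp only [u, if_pos (mem_image_of_mem _ hq), ((h.sb _).1.inj.mono fun _ j =>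
      h.c_dm (h.c21 (h.b_c2 j))).leftInvOn_invFunOn hq]
  have u2 : ∀ x, |u x| ≤ 1 ∧ (x ∉ k.S → u x = 0) := fun x => by
    by_cases c : x ∈ k.Ψ k.σ '' k.B
    · obtain ⟨q, hq, rfl⟩ := c
      rw [u1 q hq]
      refine ⟨(t q hq).1, fun j => z q ?_⟩
      by_contra! i
      exact j ⟨q, ⟨Ioo_subset_Icc_self hq.1, ⟨i.1.le, hq.2.1.2.le⟩, i.2.le⟩, rfl⟩
    · simp only [u, if_neg c, abs_zero, zero_le_one, implies_true, and_self]
  have e : ∀ p ∈ k.B, 0 ≤ p.1 → ∀ᶠ q in 𝓝 p, k.G (vh (k.Ψ k.σ q)) + u (k.Ψ k.σ q) + 1 =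
      vv q + φ q + (1 - (k.R - 11 / 4 * k.w)) := fun p hp a => (l.loc hp a).mono fun q j => by
    rw [j.2, u1 q j.1, Ko.G, stp_one (by linarith) (show _ < vv q from j.1.2.1.1).le]
    ring
  have c : ∀ C c p, Mo C (fun _ => c) p := fun _ c _ => Mo.ev c (.of_forall fun _ => rfl)
  refine ⟨fun x => k.G (vh x) + u x + 1, fun x => ⟨?_, ?_⟩, ?_, fun x hx hv => ?_⟩
  · linarith [l.G_nn (vh x), (abs_le.1 (u2 x).1).1]
  · linarith [(abs_le.1 (u2 x).1).2]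
  · rintro _ ⟨p, hp, rfl⟩
    exact ((h.cv2 (h.s0_b hp)).2 _ _ (e p (h.s0_b hp) hp.1.1)).2
      ((((t p (h.s0_b hp)).2 hp.2.1.2).2 hp.2.1.1 hp.2.2).add (c _ _ _))
  obtain j | ⟨p, hp, a, b, rfl⟩ := l.alt hx hv
  · exact ((l.mo' l.G_fn hx hv).add (Mo.ev 0 (eventually_of_mem
      (h.s_cpt.isClosed.isOpen_compl.mem_nhds j.1) fun z i => (u2 z).2 i))).add (c _ _ _)
  · exact ((h.cv2 hp).2 _ _ (e p hp a)).1 (((t p hp).2 (by linarith)).1.add (c _ _ _))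

theorem kl : KL := fun k h => by
  obtain ⟨η, vh, l⟩ := h.exL
  obtain ⟨f, f1, f2, f3⟩ := l.exf
  have w := h.w0
  obtain ⟨c, c0, hc⟩ := dom (τ := k.τ) h.lor' h.s0_cpt (by
    rintro _ ⟨p, hp, rfl⟩
    exact ⟨h.pull.maps (h.s0_b hp), f2 _ ⟨p, hp, rfl⟩, (h.tau (h.kV (h.s0K hp))).1⟩)
  obtain ⟨m, hm⟩ := h.lens.cpt.bddBelow_image fun x hx =>
    (h.tau hx).1.continuousAt.continuousWithinAt
  set V' := k.V + c * (5 * k.w + 2) with hV
  obtain ⟨e, e0, e1, e2⟩ : ∃ e > 0, 4 * (V' - m) < e ∧ V' - k.V + 1 < e :=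
    ⟨max (max (4 * (V' - m)) (V' - k.V + 1)) 0 + 1, by positivity,
      lt_of_le_of_lt (by simp) (lt_add_one _), lt_of_le_of_lt (by simp) (lt_add_one _)⟩
  have a1 : k.V - 1 / 2 < k.V - 1 / 4 := by linarith
  have a2 : k.R + 9 / 4 * k.w < k.R + 19 / 8 * k.w := by linarith
  have hH : k.Fn k.H := l.stp_fn (by linarith) a2
  set F := fun x => k.τ x + c * f x +
    e * (stp (k.V - 1 / 2) (k.V - 1 / 4) (k.τ x) + η x + k.H (vh x)) with hF
  set K := k.K1 η ∩ (fun x => k.H (vh x)) ⁻¹' Iic (1 / 2)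
  have kv : ∀ x ∈ K, vh x < k.R + 19 / 8 * k.w := fun x hx =>
    lt_of_stp a2 ((show k.H (vh x) ≤ 1 / 2 from hx.2).trans_lt (by norm_num))
  have kw : ∀ x ∈ K, x ∈ k.W' := fun x hx => (l.alt hx.1 (kv x hx)).elim
    (fun j => .inr ⟨h.kD (l.k1 hx.1), j.1⟩) fun ⟨p, hp, _, _, j⟩ => .inl ⟨p, hp, j.symm⟩
  have sub : KV (k.W' ∩ k.W) F V' ⊆ K := fun x hx => by
    have b0 : F x ≤ V' := hx.2.2
    have b1 := mul_nonneg c0 (f1 x).1
    have b2 := (l.nn x).1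
    have b3 : 0 ≤ k.H (vh x) := stp_nn
    have b4 : 0 ≤ stp (k.V - 1 / 2) (k.V - 1 / 4) (k.τ x) := stp_nn
    have b5 : k.τ x < k.V - 1 / 4 := not_le.1 fun j => by
      simp only [hF, stp_one a1 j] at b0
      nlinarith
    have b6 : m ≤ k.τ x := hm ⟨x, ⟨hx.1.2, hx.2.1, by linarith⟩, rfl⟩
    have b7 : stp (k.V - 1 / 2) (k.V - 1 / 4) (k.τ x) + η x + k.H (vh x) < 1 / 4 :=
      lt_of_mul_lt_mul_left (by simp only [hF] at b0; linarith) e0.le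
    exact ⟨⟨hx.1.2, hx.2.1, by linarith⟩, show k.H (vh x) ≤ 1 / 2 by linarith⟩
  have ms : ∀ x ∈ K, Ms (k.ca' x) F x := fun x hx => by
    have b1 := l.mo' hH hx.1 (kv x hx)
    have b2 := h.tau (l.k1 hx.1)
    rcases l.cone hx.1 (kv x hx) with j | j
    · have b3 := f3 x hx.1 (kv x hx)
      rw [j] at b1 b3 ⊢
      exact (b2.add (mo_mul b3 c0)).add (mo_mul
        (((b2.mo.comp stp_cd (stp_mono a1)).add (l.mo x hx.1).1).add b1) e0.le)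
    · refine (hc x j).add (mo_mul (((Mo.ev 0 ?_).add ((l.mo x hx.1).2.1 j)).add b1) e0.le)
      obtain ⟨p, hp, rfl⟩ := j
      exact (b2.1.continuousAt.eventually_lt_const (show _ < k.V - 1 / 2 by
        linarith [show k.τ _ ≤ _ from (h.s0K hp).2.2])).mono fun _ i => stp_zero a1 i.le
  have mem : ∀ x ∈ k.K (k.V - 1), k.ρ x ≤ 0 → vh x ≤ k.R + 9 / 4 * k.w →
      x ∈ KV (k.W' ∩ k.W) F (V' - 1) := fun x hx a b => by
    have b1 : k.τ x ≤ k.V - 1 := hx.2.2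
    have b2 : k.H (vh x) = 0 := stp_zero a2 b
    have b3 : k.G (vh x) ≤ 5 * k.w := (l.G_fn.mono b).trans
      ((mul_le_of_le_one_left (by linarith) stp_le).trans (by linarith))
    refine ⟨⟨kw x ⟨l.k1' hx a, show k.H (vh x) ≤ 1 / 2 by linarith⟩, hx.1⟩, hx.2.1, ?_⟩
    simp only [hF, b2, (l.nn x).2 a, stp_zero a1 (show k.τ x ≤ _ by linarith)]
    nlinarith [mul_le_mul_of_nonneg_left ((f1 x).2.trans (add_le_add_left b3 2)) c0]
  have vj : ∀ y ∈ k.Z, vh (k.J y) ≤ k.R + 9 / 4 * k.w := fun y hy =>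
    (l.vJ hy).trans (max_le (by linarith) (Ko.L.zb hy))
  refine ⟨k.W' ∩ k.W, F, V', sublens (K := K) (h.lor'.mono (h.lor'.isOpen.inter h.lens.lor.isOpen)
    inter_subset_left) (fun p hp => h.lens.ne p hp.2) h.pd (l.lens.cpt.of_isClosed_subset
      (ContinuousOn.preimage_isClosed_of_isClosed (fun x hx => (l.mo_vh hH hx (.inr fun v i =>
        (stp_one a2 (by linarith)).trans (stp_one a2 (by linarith)).symm)).1.continuousAt.continuousWithinAt)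
        l.lens.cpt.isClosed isClosed_Iic) inter_subset_left)
    (fun x hx => ⟨⟨kw x hx, hx.1.1⟩, hx.1.2.1, ms x hx⟩) sub
    fun y hy => l.sig hy.1 (kv _ hy) (kw _ hy), fun x hx => l.k1 (sub hx).1,
    fun x hx => (l.alt (sub hx).1 (kv x (sub hx))).imp And.left fun ⟨p, a, b, _, d⟩ => ⟨p, a, b, d⟩,
    fun x hx => mem x (h.low x hx).1 (l.low hx).1 (by linarith [(l.low hx).2]),
    fun y hy => mem _ (h.top hy) (h.rho_J hy.1).le (vj y hy), fun x hx => ?_, ?_⟩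
  · have b1 := l.k1' (h.low x hx).1 (l.low hx).1
    have b2 : x ∉ k.S := by
      rintro ⟨p, hp, rfl⟩
      linarith [(l.vS b1 hp).2.2, (l.low hx).2, hp.2.1.1]
    refine ⟨b2, fun a => ?_⟩
    have b3 : pt 0 (xs x) = x := a ▸ pt_xs x
    exact (h.i2 _ (h.lens.ne _ b1.1) (by
      linarith [l.u1 _ (b3.symm ▸ b1), (b3.symm ▸ (l.low hx).2 : vh (pt 0 (xs x)) ≤ _)])
      (b3.symm ▸ b2)).1
  · rintro y hy ⟨p, hp, e⟩
    have b1 := (h.onJ (h.c21 (h.s_c2 hp)) (h.nn (h.s_c2 hp) (e ▸ (h.top hy).2.1)) hy.1 e).2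
    have b2 : vv p ≤ k.R + 9 / 4 * k.w := 
      (lb_lg k.b k.σ (vv p, p.2.2)).2.symm.trans_le (b1 ▸ Ko.L.zb hy)
    exact ⟨(vv p, p.2.2), ⟨⟨by linarith [hp.2.1.1], by linarith⟩, by linarith [hp.2.2]⟩, b2, b1⟩

end Vale.Agent.P354YM
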