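import Vale.Agent.P354SF.Fin

/-!
The literal statement, with the existence of the weight and the Baire property.
-/

open Set

namespace Vale.Agent.P354YM

open Vale.Agent.P354I (X Good)
open Vale.Agent.P354Z (IsWt DD Ext kerr0)

theorem q1_best (h : P354XS.Q1') : ∀ M a : ℝ, 0 < M → 0 < |a| → |a| < M →
    (∃ ρ : X → ℝ, IsWt M a ρ) ∧ ∀ ρ : X → ℝ, IsWt M a ρ → BaireSpace (DD M a ρ) ∧
      ∃ U : Set (DD M a ρ), IsOpen U ∧ (∃ d ∈ U, d.1 = kerr0 M a) ∧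
        IsMeagre {d : U | Ext d.1.1} ∧ IsMeagre {d : U | ¬ Good d.1.1} ∧
        Dense {d : U | Good d.1.1 ∧ ¬ Ext d.1.1} := fun M a h0 ha hM => by
  refine ⟨(P354XQ.exists_wt hM).imp fun _ k => P354SF.isWt_iff.2 k, fun ρ hρ => ⟨?_, ?_⟩⟩
  · obtain ⟨e, -⟩ := P354SF.exists_homeo' P354XK.kd hM (P354SF.isWt_iff.1 hρ)
    have := P354SF.baire hM (P354XK.kd M a hM).1.1
    exact e.isOpenEmbedding.baireSpace
  · obtain ⟨U, h1, h2, h3, h4, h5⟩ := P354SF.q1_fin h M a h0 ha hM ρ hρ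
    exact ⟨U, h1, h2, h3, h4, h5.mono fun d hd => ⟨hd, P354Z.not_ext hd⟩⟩

end Vale.Agent.P354YM
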